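import Vale.Agent.P096.Stable.Average

/-!
# Moving an amenable group of unitaries into a nearby algebra

Approximate representations of an amenable group are improved by averaging, with a quadratic gain
at every step; two nearby representations are intertwined by the mean of their quotient.
-/

noncomputable section

namespace Vale.Agent.P096.Stable

open Vale.Agent.P104
open scoped InnerProductSpace ComplexOrder
open Filter Topology

set_option linter.unusedSectionVars false

variable {H : Type*} [NormedAddCommGroup H] [InnerProductSpace ℂ H] [CompleteSpace H]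

theorem norm_one_le : ‖(1 : H →L[ℂ] H)‖ ≤ 1 := ContinuousLinearMap.norm_id_le

theorem norm_le_one_of_unitary {u : H →L[ℂ] H} (hu : u ∈ unitary (H →L[ℂ] H)) : ‖u‖ ≤ 1 :=
  ContinuousLinearMap.opNorm_le_bound _ zero_le_one fun v => by
    rw [one_mul]
    refine le_of_pow_le_pow_left₀ two_ne_zero (norm_nonneg _) (le_of_eq ?_)
    rw [← inner_self_eq_norm_sq (𝕜 := ℂ), ← inner_self_eq_norm_sq (𝕜 := ℂ),
      ← ContinuousLinearMap.adjoint_inner_left, ← ContinuousLinearMap.star_eq_adjoint,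
      ← mul_apply_eq_comp, Unitary.star_mul_self_of_mem hu, one_apply_eq_self]

theorem isUnit_of_unitary {x : H →L[ℂ] H} (hx : x ∈ unitary (H →L[ℂ] H)) : IsUnit x :=
  ⟨⟨x, star x, Unitary.mul_star_self_of_mem hx, Unitary.star_mul_self_of_mem hx⟩, rfl⟩

/-- The unitary part of a nearly unitary invertible operator. -/
theorem exists_polar {a : H →L[ℂ] H} (ha : IsUnit a) {ε : ℝ} (hε : ε ≤ 1 / 2)
    (h : ‖star a * a - 1‖ ≤ ε) :
    ∃ u ∈ unitary (H →L[ℂ] H), ‖u - a‖ ≤ ε ∧
      (∀ z, Commute a z → Commute (star a) z → Commute u z) ∧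
      ∀ w₁ ∈ unitary (H →L[ℂ] H), ∀ w₂ ∈ unitary (H →L[ℂ] H), w₁ * a = a * w₂ → w₁ * u = u * w₂ := by
  have hε0 : 0 ≤ ε := (norm_nonneg _).trans h
  set A := star a * a with hA
  have hsa : IsSelfAdjoint A := IsSelfAdjoint.star_mul_self a
  have hspec : ∀ t ∈ spectrum ℝ A, |t - 1| ≤ ε := by
    intro t ht
    have e : A - 1 = cfc (fun s : ℝ => s - 1) A := by
      rw [cfc_sub _ _ A, cfc_id' ℝ A, cfc_const_one ℝ A]
    have h2 := norm_apply_le_norm_cfc (fun s : ℝ => s - 1) A ht
    rw [← e] at h2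
    exact (Real.norm_eq_abs _ ▸ h2).trans h
  have hpos : ∀ t ∈ spectrum ℝ A, 0 < t := fun t ht => by
    have := abs_le.1 (hspec t ht); linarith
  have hc1 : ContinuousOn (fun t : ℝ => Real.sqrt t) (spectrum ℝ A) :=
    Real.continuous_sqrt.continuousOn
  have hc2 : ContinuousOn (fun t : ℝ => (Real.sqrt t)⁻¹) (spectrum ℝ A) :=
    hc1.inv₀ fun t ht => (Real.sqrt_pos.2 (hpos t ht)).ne'
  set r := cfc (fun t : ℝ => Real.sqrt t) A with hrdef
  set r' := cfc (fun t : ℝ => (Real.sqrt t)⁻¹) A with hr'def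
  have hr'r : r' * r = 1 := by
    rw [hrdef, hr'def, ← cfc_mul _ _ A hc2 hc1,
      cfc_congr (g := fun _ : ℝ => 1) (fun t ht => inv_mul_cancel₀ (Real.sqrt_pos.2 (hpos t ht)).ne'),
      cfc_const_one ℝ A]
  have hrr' : r * r' = 1 := by
    rw [hrdef, hr'def, ← cfc_mul _ _ A hc1 hc2,
      cfc_congr (g := fun _ : ℝ => 1) (fun t ht => mul_inv_cancel₀ (Real.sqrt_pos.2 (hpos t ht)).ne'),
      cfc_const_one ℝ A]
  have hrr : r * r = A := by
    rw [hrdef, ← cfc_mul _ _ A hc1 hc1,
      cfc_congr (g := fun t : ℝ => t) (fun t ht => Real.mul_self_sqrt (hpos t ht).le), cfc_id' ℝ A]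
  have hr's : star r' = r' := (cfc_predicate _ A : IsSelfAdjoint r').star_eq
  set u := a * r' with hu
  have huu : star u * u = 1 := by
    rw [hu, star_mul, hr's, mul_assoc, ← mul_assoc (star a), ← hA, ← hrr, mul_assoc r, hrr',
      mul_one, hr'r]
  have humem : u ∈ unitary (H →L[ℂ] H) := by
    obtain ⟨w, hw⟩ := IsUnit.mul ha (⟨⟨r', r, hr'r, hrr'⟩, rfl⟩ : IsUnit r')
    refine Unitary.mem_iff.2 ⟨huu, ?_⟩
    have : star u = ↑w⁻¹ := by
      rw [← mul_one (star u), ← Units.mul_inv w, ← mul_assoc, hw, ← hu, huu, one_mul]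
    rw [this, hu, ← hw, Units.mul_inv]
  refine ⟨u, humem, ?_, fun z h1 h2 => ?_, fun w₁ h₁ w₂ h₂ h12 => ?_⟩
  · have e : u - a = u * (1 - r) := by rw [hu, mul_sub, mul_one, mul_assoc, hr'r, mul_one]
    rw [e]
    refine (norm_mul_le _ _).trans ((mul_le_of_le_one_left (norm_nonneg _)
      (norm_le_one_of_unitary humem)).trans ?_)
    have e' : 1 - r = cfc (fun t : ℝ => 1 - Real.sqrt t) A := by
      rw [cfc_sub _ _ A continuousOn_const hc1, cfc_const_one ℝ A]
    rw [e']
    refine norm_cfc_le hε0 fun t ht => ?_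
    rw [Real.norm_eq_abs]
    have hb := abs_le.1 (hspec t ht)
    have hs := Real.mul_self_sqrt (hpos t ht).le
    refine abs_le.2 ⟨?_, ?_⟩ <;> nlinarith [Real.sqrt_nonneg t]
  · exact h1.mul_left ((h2.mul_left h1).cfc_real _)
  · have e1 : star a * w₁ = w₂ * star a := by
      have h3 := congrArg star h12
      rw [star_mul, star_mul] at h3
      calc star a * w₁ = w₂ * (star w₂ * star a) * w₁ := by
            rw [← mul_assoc, Unitary.mul_star_self_of_mem h₂, one_mul]
        _ = w₂ * star a := by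
            rw [← h3, mul_assoc, mul_assoc, Unitary.star_mul_self_of_mem h₁, mul_one]
    have h4 : Commute A w₂ := by
      show A * w₂ = w₂ * A
      rw [hA, mul_assoc, ← h12, ← mul_assoc, e1, mul_assoc]
    rw [hu, ← mul_assoc, h12, mul_assoc, ← (h4.cfc_real _).eq, mul_assoc]

/-- The unitary part of an operator close to a unitary. -/
theorem exists_unitary_near {a x : H →L[ℂ] H} (hx : x ∈ unitary (H →L[ℂ] H)) {γ : ℝ}
    (hγ : γ ≤ 1 / 8) (h : ‖a - x‖ ≤ γ) :
    ∃ u ∈ unitary (H →L[ℂ] H), ‖u - x‖ ≤ 4 * γ ∧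
      (∀ z, Commute a z → Commute (star a) z → Commute u z) ∧
      ∀ w₁ ∈ unitary (H →L[ℂ] H), ∀ w₂ ∈ unitary (H →L[ℂ] H), w₁ * a = a * w₂ → w₁ * u = u * w₂ := by
  have hγ0 : 0 ≤ γ := (norm_nonneg _).trans h
  have hxu := norm_le_one_of_unitary hx
  have ha : IsUnit a := by
    have h1 : ‖1 - star x * a‖ < 1 := by
      rw [← Unitary.star_mul_self_of_mem hx, ← mul_sub]
      refine lt_of_le_of_lt (norm_mul_le _ _) ?_
      rw [norm_star, norm_sub_rev]
      nlinarith [norm_nonneg x, norm_nonneg (a - x)]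
    have h2 := isUnit_one_sub_of_norm_lt_one h1
    rw [sub_sub_cancel] at h2
    have h3 := IsUnit.mul (isUnit_of_unitary hx) h2
    rwa [← mul_assoc, Unitary.mul_star_self_of_mem hx, one_mul] at h3
  have hd : ‖star a * a - 1‖ ≤ 3 * γ := by
    have e : star a * a - 1 = star (a - x) * (a - x) + (star (a - x) * x + star x * (a - x)) := by
      rw [← Unitary.star_mul_self_of_mem hx, star_sub]
      noncomm_ring
    rw [e]
    refine (norm_add_le _ _).trans (le_trans (add_le_add (norm_mul_le _ _)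
      ((norm_add_le _ _).trans (add_le_add (norm_mul_le _ _) (norm_mul_le _ _)))) ?_)
    rw [norm_star, norm_star]
    nlinarith [norm_nonneg (a - x), norm_nonneg x]
  obtain ⟨u, hu, hua, hc, hi⟩ := exists_polar ha (by linarith) hd
  refine ⟨u, hu, ?_, hc, hi⟩
  have := norm_sub_le_norm_sub_add_norm_sub u a x
  linarith

variable {G : Type*} [Group G] {m : (G → ℝ) → ℝ}

theorem star_map_mul (w : G →* unitary (H →L[ℂ] H)) (h k : G) :
    star (w (h * k) : H →L[ℂ] H) = star (w k : H →L[ℂ] H) * star (w h : H →L[ℂ] H) := by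
  rw [map_mul, Submonoid.coe_mul, star_mul]

theorem star_map (w : G →* unitary (H →L[ℂ] H)) (g : G) :
    star (w g : H →L[ℂ] H) = (w g⁻¹ : H →L[ℂ] H) := by
  rw [map_inv, ← Unitary.star_eq_inv, Unitary.coe_star]

/-- Two representations with an intertwining unitary: an operator near it yields an exact
intertwining unitary nearby. -/
theorem exists_intertwine (hm : IsInvariantMean G m) (w₁ w₂ : G →* unitary (H →L[ℂ] H))
    {x y : H →L[ℂ] H} (hx : x ∈ unitary (H →L[ℂ] H))
    (hxw : ∀ g, (w₁ g : H →L[ℂ] H) * x = x * (w₂ g : H →L[ℂ] H)) {γ : ℝ} (hγ : γ ≤ 1 / 8)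
    (h : ‖y - x‖ ≤ γ) :
    ∃ v ∈ unitary (H →L[ℂ] H), ‖v - x‖ ≤ 4 * γ ∧
      (∀ g, (w₁ g : H →L[ℂ] H) * v = v * (w₂ g : H →L[ℂ] H)) ∧
      ∀ z, Commute y z → Commute (star y) z → (∀ g, Commute (w₁ g : H →L[ℂ] H) z) →
        (∀ g, Commute (w₂ g : H →L[ℂ] H) z) → Commute v z := by
  set F := fun g => star (w₁ g : H →L[ℂ] H) * y * (w₂ g : H →L[ℂ] H) with hF
  have hFx : ∀ g, ‖F g - x‖ ≤ γ := fun g => by
    have e : F g - x = star (w₁ g : H →L[ℂ] H) * (y - x) * (w₂ g : H →L[ℂ] H) := by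
      rw [mul_sub, sub_mul, hF, mul_assoc _ x, ← hxw g, ← mul_assoc,
        Unitary.star_mul_self_of_mem (w₁ g).2, one_mul]
    rw [e]
    refine (norm_mul_le _ _).trans ((mul_le_of_le_one_right (norm_nonneg _)
      (norm_le_one_of_unitary (w₂ g).2)).trans ((norm_mul_le _ _).trans
      ((mul_le_of_le_one_left (norm_nonneg _) ?_).trans h)))
    rw [norm_star]; exact norm_le_one_of_unitary (w₁ g).2
  set a := opMean hm F with ha
  have hFb : OpBdd F := ⟨γ + ‖x‖, fun g => (norm_le_insert' _ _).trans (by linarith [hFx g])⟩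
  have hak : ∀ k, (w₁ k : H →L[ℂ] H) * a = a * (w₂ k : H →L[ℂ] H) := fun k => by
    have h1 : star (w₁ k : H →L[ℂ] H) * a * (w₂ k : H →L[ℂ] H) = a := by
      rw [ha, ← mul_opMean_mul hm hFb]
      conv_rhs => rw [← opMean_shift hm hFb k]
      congr 1
      funext g
      simp only [hF, map_mul, Submonoid.coe_mul, star_mul, mul_assoc]
    conv_lhs => rw [← h1, ← mul_assoc, ← mul_assoc, Unitary.mul_star_self_of_mem (w₁ k).2, one_mul]
  obtain ⟨v, hv, hvx, hc, hi⟩ := exists_unitary_near hx hγ (norm_opMean_sub_le hm hFx)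
  refine ⟨v, hv, hvx, fun g => hi _ (w₁ g).2 _ (w₂ g).2 (hak g), fun z h1 h2 h3 h4 => ?_⟩
  refine hc z (opMean_commute hm hFb fun g => ?_) ?_
  · refine (Commute.mul_left ?_ h1).mul_left (h4 g)
    rw [star_map]; exact h3 _
  · rw [← opMean_star hm hFb]
    refine opMean_commute hm (hFb.imp fun C hC g => by rw [norm_star]; exact hC g) fun g => ?_
    simp only [hF, star_mul, star_star]
    refine Commute.mul_left ?_ (Commute.mul_left h2 (h3 g))
    rw [star_map]; exact h4 _

/-- The operators commuting with a set. -/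
def Comm (P : Set (H →L[ℂ] H)) : Set (H →L[ℂ] H) := {x | ∀ z ∈ P, Commute x z}

theorem star_mem_comm {P : Set (H →L[ℂ] H)} (hP : ∀ z ∈ P, star z ∈ P) {x : H →L[ℂ] H}
    (hx : x ∈ Comm P) : star x ∈ Comm P := fun z hz => by
  have := (hx _ (hP z hz)).star_star
  rwa [star_star] at this

/-- An approximate representation by unitaries of the algebra. -/
def IsApprox (P : Set (H →L[ℂ] H)) (T : G → (H →L[ℂ] H)) (δ : ℝ) : Prop :=
  (∀ g, T g ∈ unitary (H →L[ℂ] H)) ∧ (∀ g, T g ∈ Comm P) ∧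
    ∀ g h, ‖T (g * h) - T g * T h‖ ≤ δ

theorem exists_better (hm : IsInvariantMean G m) {P : Set (H →L[ℂ] H)} (hP : ∀ z ∈ P, star z ∈ P)
    {T : G → (H →L[ℂ] H)} {δ : ℝ} (hδ : δ ≤ 1 / 32) (hT : IsApprox P T δ) :
    ∃ T' : G → (H →L[ℂ] H), IsApprox P T' (16 * δ ^ 2) ∧ ∀ g, ‖T' g - T g‖ ≤ 2 * δ := by
  have hδ0 : 0 ≤ δ := (norm_nonneg _).trans (hT.2.2 1 1)
  obtain ⟨hTu, hTP, hTd⟩ := hT
  set X := fun g h => star (T h) * T (h * g) with hX
  have hXT : ∀ g h, ‖X g h - T g‖ ≤ δ := fun g h => by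
    have e : X g h - T g = star (T h) * (T (h * g) - T h * T g) := by
      rw [mul_sub, ← mul_assoc, Unitary.star_mul_self_of_mem (hTu h), one_mul]
    rw [e]
    refine (norm_mul_le _ _).trans ((mul_le_of_le_one_left (norm_nonneg _) ?_).trans (hTd h g))
    rw [norm_star]; exact norm_le_one_of_unitary (hTu h)
  set a := fun g => opMean hm (X g) with ha
  have haT : ∀ g, ‖a g - T g‖ ≤ δ := fun g => norm_opMean_sub_le hm (hXT g)
  have hXb : ∀ g, OpBdd (X g) := fun g => ⟨δ + ‖T g‖, fun h => (norm_le_insert' _ _).trans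
    (by linarith [hXT g h])⟩
  have hXa : ∀ g h, ‖X g h - a g‖ ≤ 2 * δ := fun g h => by
    have h1 := norm_sub_le_norm_sub_add_norm_sub (X g h) (T g) (a g)
    rw [norm_sub_rev (T g)] at h1
    linarith [hXT g h, haT g]
  have hprod : ∀ g k, ‖a (g * k) - a g * a k‖ ≤ 4 * δ ^ 2 := fun g k => by
    have e : (fun h => X g h * X k (h * g)) = X (g * k) := funext fun h => by
      simp only [hX, mul_assoc]
      rw [← mul_assoc (T (h * g)), Unitary.mul_star_self_of_mem (hTu _), one_mul]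
    have h1 := norm_opMean_mul_sub_le hm (X := X g) (Y := fun h => X k (h * g)) (a := a g) (b := a k)
      rfl (opMean_shift hm (hXb k) g) (hXa g) (fun h => hXa k _)
    rw [e] at h1
    exact h1.trans (le_of_eq (by ring))
  have huni : ∀ g, ‖star (a g) * a g - 1‖ ≤ 4 * δ ^ 2 := fun g => by
    have e : (fun h => star (X g h) * X g h) = fun _ => 1 := funext fun h =>
      Unitary.star_mul_self_of_mem (mul_mem (Unitary.star_mem (hTu h)) (hTu _))
    have h1 := norm_opMean_mul_sub_le hm (X := fun h => star (X g h)) (Y := X g) (a := star (a g))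
      (b := a g) (opMean_star hm (hXb g)) rfl
      (fun h => by rw [← star_sub, norm_star]; exact hXa g h) (hXa g)
    rw [e, opMean_const, norm_sub_rev] at h1
    exact h1.trans (le_of_eq (by ring))
  have hau : ∀ g, IsUnit (a g) := fun g => by
    have h1 : ‖1 - star (T g) * a g‖ < 1 := by
      rw [← Unitary.star_mul_self_of_mem (hTu g), ← mul_sub]
      refine lt_of_le_of_lt (norm_mul_le _ _) ?_
      rw [norm_star, norm_sub_rev]
      nlinarith [norm_nonneg (T g), norm_nonneg (a g - T g), haT g,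
        norm_le_one_of_unitary (hTu g)]
    have h2 := isUnit_one_sub_of_norm_lt_one h1
    rw [sub_sub_cancel] at h2
    have h3 := IsUnit.mul (isUnit_of_unitary (hTu g)) h2
    rwa [← mul_assoc, Unitary.mul_star_self_of_mem (hTu g), one_mul] at h3
  choose U hU hUa hUc _ using fun g => exists_polar (hau g) (by nlinarith) (huni g)
  have hXP : ∀ g h, X g h ∈ Comm P := fun g h z hz =>
    (star_mem_comm hP (hTP h) z hz).mul_left (hTP _ z hz)
  have haP : ∀ g, a g ∈ Comm P := fun g z hz => opMean_commute hm (hXb g) fun h => hXP g h z hz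
  refine ⟨U, ⟨hU, fun g z hz => hUc g z (haP g z hz) (star_mem_comm hP (haP g) z hz),
    fun g k => ?_⟩, fun g => ?_⟩
  · have e : U (g * k) - U g * U k = (U (g * k) - a (g * k)) + (a (g * k) - a g * a k) +
        ((a g - U g) * a k + U g * (a k - U k)) := by noncomm_ring
    rw [e]
    have hak : ‖a k‖ ≤ 1 := norm_opMean_le hm fun h =>
      norm_le_one_of_unitary (mul_mem (Unitary.star_mem (hTu h)) (hTu _))
    refine (norm_add_le _ _).trans (le_trans (add_le_add (norm_add_le _ _) ((norm_add_le _ _).trans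
      (add_le_add (norm_mul_le _ _) (norm_mul_le _ _)))) ?_)
    have h2 := hUa g
    have h3 := hUa k
    rw [norm_sub_rev] at h2 h3
    nlinarith [norm_nonneg (a g - U g), norm_nonneg (a k - U k), norm_nonneg (a k),
      norm_le_one_of_unitary (hU g), norm_nonneg (U g), hUa (g * k), hprod g k]
  · have := norm_sub_le_norm_sub_add_norm_sub (U g) (a g) (T g)
    nlinarith [hUa g, haT g]

/-- An approximate representation of an amenable group is near a representation. -/
theorem exists_rep (hm : IsInvariantMean G m) {P : Set (H →L[ℂ] H)} (hP : ∀ z ∈ P, star z ∈ P)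
    {T : G → (H →L[ℂ] H)} {δ : ℝ} (hδ : δ ≤ 1 / 32) (hT : IsApprox P T δ) :
    ∃ v : G → (H →L[ℂ] H), IsApprox P v 0 ∧ ∀ g, ‖v g - T g‖ ≤ 4 * δ := by
  have hδ0 : 0 ≤ δ := (norm_nonneg _).trans (hT.2.2 1 1)
  have next_ : ∀ n : ℕ, ∀ S : {R : G → (H →L[ℂ] H) // IsApprox P R (δ * (1 / 2) ^ n)},
      ∃ S' : {R : G → (H →L[ℂ] H) // IsApprox P R (δ * (1 / 2) ^ (n + 1))},
        ∀ g, ‖S'.1 g - S.1 g‖ ≤ 2 * (δ * (1 / 2) ^ n) := by
    intro n S
    have h0 : 0 ≤ δ * (1 / 2) ^ n := by positivity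
    have h1 : δ * (1 / 2) ^ n ≤ 1 / 32 :=
      (mul_le_of_le_one_right hδ0 (pow_le_one₀ (by norm_num) (by norm_num))).trans hδ
    obtain ⟨S', hS', hd⟩ := exists_better hm hP h1 S.2
    refine ⟨⟨S', hS'.1, hS'.2.1, fun g h => (hS'.2.2 g h).trans ?_⟩, hd⟩
    rw [pow_succ (1 / 2 : ℝ)]
    nlinarith
  choose nxt hnxt using next_
  let seq : (n : ℕ) → {R : G → (H →L[ℂ] H) // IsApprox P R (δ * (1 / 2) ^ n)} := fun n =>
    Nat.rec (motive := fun n => {R : G → (H →L[ℂ] H) // IsApprox P R (δ * (1 / 2) ^ n)})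
      ⟨T, by simpa using hT⟩ (fun n S => nxt n S) n
  have hstep : ∀ g n, dist ((seq n).1 g) ((seq (n + 1)).1 g) ≤ 4 * δ / 2 / 2 ^ n := fun g n => by
    rw [dist_eq_norm, norm_sub_rev]
    refine (hnxt n (seq n) g).trans (le_of_eq ?_)
    rw [div_pow, one_pow]
    ring
  choose v hv using fun g => cauchySeq_tendsto_of_complete
    (cauchySeq_of_le_geometric_two (hstep g))
  refine ⟨v, ⟨fun g => ?_, fun g z hz => ?_, fun g h => ?_⟩, fun g => ?_⟩
  · refine Unitary.mem_iff.2 ⟨?_, ?_⟩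
    · refine tendsto_nhds_unique ((((continuous_star.tendsto _).comp (hv g))).mul (hv g))
        (tendsto_const_nhds.congr fun n => ?_)
      exact (Unitary.star_mul_self_of_mem ((seq n).2.1 g)).symm
    · refine tendsto_nhds_unique ((hv g).mul ((continuous_star.tendsto _).comp (hv g)))
        (tendsto_const_nhds.congr fun n => ?_)
      exact (Unitary.mul_star_self_of_mem ((seq n).2.1 g)).symm
  · exact tendsto_nhds_unique ((hv g).mul_const z)
      (((hv g).const_mul z).congr fun n => ((seq n).2.2.1 g z hz).eq.symm)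
  · refine le_of_tendsto_of_tendsto' ((hv (g * h)).sub ((hv g).mul (hv h))).norm ?_
      fun n => (seq n).2.2.2 g h
    simpa using (tendsto_pow_atTop_nhds_zero_of_lt_one (by norm_num : (0 : ℝ) ≤ 1 / 2)
      (by norm_num)).const_mul δ
  · have := dist_le_of_le_geometric_two_of_tendsto₀ (hstep g) (hv g)
    rwa [dist_eq_norm, norm_sub_rev] at this

/-- A unitary near one moves the group into the commutant of `P`, and commutes with whatever
commutes with the group and with that commutant. -/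
theorem exists_align (hm : IsInvariantMean G m) (w : G →* unitary (H →L[ℂ] H))
    {P : Set (H →L[ℂ] H)} (hP : ∀ z ∈ P, star z ∈ P) {γ : ℝ} (hγ : γ ≤ 1 / 800)
    (h : ∀ g, ∃ y ∈ Comm P, ‖y - (w g : H →L[ℂ] H)‖ ≤ γ) :
    ∃ u ∈ unitary (H →L[ℂ] H), ‖u - 1‖ ≤ 210 * γ ∧
      (∀ g, u * (w g : H →L[ℂ] H) * star u ∈ Comm P) ∧
      ∀ z, (∀ g, Commute (w g : H →L[ℂ] H) z) → (∀ y ∈ Comm P, Commute y z) → Commute u z := by
  have hγ0 : 0 ≤ γ := by obtain ⟨y, -, hy⟩ := h 1; exact (norm_nonneg _).trans hy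
  choose y hy hyw using h
  choose T hT hTw hTc _ using fun g => exists_unitary_near (w g).2 (by linarith) (hyw g)
  have hTP : ∀ g, T g ∈ Comm P := fun g z hz =>
    hTc g z (hy g z hz) (star_mem_comm hP (hy g) z hz)
  have hTa : IsApprox P T (12 * γ) := ⟨hT, hTP, fun g k => by
    have e : T (g * k) - T g * T k = (T (g * k) - (w (g * k) : H →L[ℂ] H)) +
        (((w g : H →L[ℂ] H) - T g) * (w k : H →L[ℂ] H) + T g * ((w k : H →L[ℂ] H) - T k)) := by
      rw [map_mul, Submonoid.coe_mul]; noncomm_ring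
    rw [e]
    refine (norm_add_le _ _).trans (le_trans (add_le_add le_rfl ((norm_add_le _ _).trans
      (add_le_add (norm_mul_le _ _) (norm_mul_le _ _)))) ?_)
    have h2 := hTw g
    have h3 := hTw k
    rw [norm_sub_rev] at h2 h3
    nlinarith [norm_nonneg ((w g : H →L[ℂ] H) - T g), norm_nonneg ((w k : H →L[ℂ] H) - T k),
      norm_le_one_of_unitary (w k).2, norm_le_one_of_unitary (hT g), norm_nonneg (T g),
      norm_nonneg (w k : H →L[ℂ] H), hTw (g * k)]⟩
  obtain ⟨v, ⟨hvu, hvP, hvm⟩, hvT⟩ := exists_rep hm hP (by linarith) hTa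
  have hvmul : ∀ g k, v (g * k) = v g * v k := fun g k =>
    sub_eq_zero.1 (norm_le_zero_iff.1 (hvm g k))
  set F := fun g => star (v g) * (w g : H →L[ℂ] H) with hF
  have hF1 : ∀ g, ‖F g - 1‖ ≤ 52 * γ := fun g => by
    have e : F g - 1 = star (v g) * ((w g : H →L[ℂ] H) - v g) := by
      rw [mul_sub, Unitary.star_mul_self_of_mem (hvu g)]
    rw [e]
    refine (norm_mul_le _ _).trans ((mul_le_of_le_one_left (norm_nonneg _) ?_).trans ?_)
    · rw [norm_star]; exact norm_le_one_of_unitary (hvu g)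
    · have h1 := norm_sub_le_norm_sub_add_norm_sub (w g : H →L[ℂ] H) (T g) (v g)
      rw [norm_sub_rev _ (T g), norm_sub_rev (T g) (v g)] at h1
      linarith [hTw g, hvT g]
  have hFb : OpBdd F := ⟨52 * γ + ‖(1 : H →L[ℂ] H)‖, fun g => (norm_le_insert' _ _).trans
    (by linarith [hF1 g])⟩
  set S := opMean hm F with hS
  have hSk : ∀ k, v k * S = S * (w k : H →L[ℂ] H) := fun k => by
    have h1 : star (v k) * S * (w k : H →L[ℂ] H) = S := by
      rw [hS, ← mul_opMean_mul hm hFb]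
      conv_rhs => rw [← opMean_shift hm hFb k]
      congr 1
      funext g
      simp only [hF, hvmul, map_mul, Submonoid.coe_mul, star_mul, mul_assoc]
    conv_lhs => rw [← h1, ← mul_assoc, ← mul_assoc, Unitary.mul_star_self_of_mem (hvu k), one_mul]
  obtain ⟨u, hu, hu1, huc, hui⟩ := exists_unitary_near (one_mem _) (by linarith)
    (norm_opMean_sub_le hm hF1)
  refine ⟨u, hu, hu1.trans (by linarith), fun g => ?_, fun z hz hzP => ?_⟩
  · rw [← hui _ (hvu g) _ (w g).2 (hSk g), mul_assoc, Unitary.mul_star_self_of_mem hu, mul_one]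
    exact hvP g
  · refine huc z (opMean_commute hm hFb fun g => (hzP _ (star_mem_comm hP (hvP g))).mul_left (hz g)) ?_
    rw [← opMean_star hm hFb]
    refine opMean_commute hm (hFb.imp fun C hC g => by rw [norm_star]; exact hC g) fun g => ?_
    simp only [hF, star_mul, star_star]
    refine Commute.mul_left ?_ (hzP _ (hvP g))
    rw [star_map]; exact hz _

end Vale.Agent.P096.Stable
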