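import Vale.Agent.P104.Mean

/-!
# Invariant means: products and locally finite groups
-/

noncomputable section

namespace Vale.Agent.P096.Stable

open Vale.Agent.P104
open Filter Topology

set_option linter.unusedSectionVars false

/-- The average of `f` over a finite set. -/
def avg {G : Type*} (s : Finset G) (f : G → ℝ) : ℝ := (∑ g ∈ s, f g) / s.card

/-- A group in which every finite set lies in a finite subgroup is amenable. -/
theorem amenable_of_locallyFinite {G : Type*} [Group G]
    (h : ∀ s : Finset G, ∃ K : Subgroup G, (s : Set G) ⊆ K ∧ (K : Set G).Finite) : Amenable G := by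
  classical
  choose K hK hfin using h
  set U : Ultrafilter (Finset G) := Ultrafilter.of atTop
  set m : (G → ℝ) → ℝ := fun f => limUnder (U : Filter (Finset G)) fun s => avg (hfin s).toFinset f
  have hne : ∀ s, 0 < ((hfin s).toFinset.card : ℝ) := fun s => by
    have : 0 < (hfin s).toFinset.card := Finset.card_pos.2 ⟨1, by simp⟩
    exact_mod_cast this
  have hbd : ∀ {f : G → ℝ} {C : ℝ}, (∀ g, |f g| ≤ C) → ∀ s,
      avg (hfin s).toFinset f ∈ Set.Icc (-C) C := fun {f C} hC s => by
    rw [avg, Set.mem_Icc, le_div_iff₀ (hne s), div_le_iff₀ (hne s)]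
    constructor
    · have := Finset.sum_le_sum (s := (hfin s).toFinset) fun g _ => (abs_le.1 (hC g)).1
      simp only [Finset.sum_const, nsmul_eq_mul] at this
      linarith
    · have := Finset.sum_le_sum (s := (hfin s).toFinset) fun g _ => (abs_le.1 (hC g)).2
      simp only [Finset.sum_const, nsmul_eq_mul] at this
      linarith
  have hlim : ∀ {f : G → ℝ}, IsBdd f →
      Tendsto (fun s => avg (hfin s).toFinset f) (U : Filter (Finset G)) (𝓝 (m f)) := by
    rintro f ⟨C, hC⟩
    obtain ⟨x, -, hx⟩ := isCompact_Icc.ultrafilter_le_nhds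
      (U.map fun s => avg (hfin s).toFinset f) (le_principal_iff.2 <| by
        simp only [Ultrafilter.coe_map, Filter.mem_map]
        exact Filter.univ_mem' (hbd hC))
    exact tendsto_nhds_limUnder ⟨x, hx⟩
  refine ⟨m, fun f g hf hg => ?_, fun c f hf => ?_, fun f hf h0 => ?_, ?_, fun k f hf => ?_⟩
  · refine tendsto_nhds_unique (hlim (f := f + g) ?_) (((hlim hf).add (hlim hg)).congr fun s => ?_)
    · obtain ⟨C, hC⟩ := hf
      obtain ⟨D, hD⟩ := hg
      exact ⟨C + D, fun x => (abs_add_le _ _).trans (add_le_add (hC x) (hD x))⟩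
    · simp [avg, Finset.sum_add_distrib, add_div]
  · refine tendsto_nhds_unique (hlim (IsBdd.smul hf c)) (((hlim hf).const_mul c).congr fun s => ?_)
    simp [avg, ← Finset.mul_sum, mul_div_assoc]
  · exact ge_of_tendsto' (hlim hf) fun s => div_nonneg (Finset.sum_nonneg fun g _ => h0 g) (hne s).le
  · refine tendsto_nhds_unique (hlim (IsBdd.const 1)) (tendsto_const_nhds.congr fun s => ?_)
    simp [avg, div_self (hne s).ne']
  · refine tendsto_nhds_unique (hlim ?_) ((hlim hf).congr' ?_)
    · exact hf.imp fun C hC g => hC _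
    · refine Filter.Eventually.filter_mono (Ultrafilter.of_le _)
        ((eventually_ge_atTop {k}).mono fun s hs => ?_)
      have hk : k ∈ K s := hK s (Finset.singleton_subset_iff.1 hs)
      simp only [avg]
      congr 1
      refine (Finset.sum_equiv (Equiv.mulRight k) (fun g => ?_) fun g _ => rfl).symm
      simp [Subgroup.mul_mem_cancel_right _ hk]

/-- Products of amenable groups are amenable. -/
theorem amenable_prod {G K : Type*} [Group G] [Group K] (hG : Amenable G) (hK : Amenable K) :
    Amenable (G × K) := by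
  obtain ⟨m₁, h₁⟩ := hG
  obtain ⟨m₂, h₂⟩ := hK
  have hin : ∀ {f : G × K → ℝ}, IsBdd f → ∀ a, IsBdd fun b => f (a, b) :=
    fun hf a => hf.imp fun C hC b => hC _
  have hout : ∀ {f : G × K → ℝ}, IsBdd f → IsBdd fun a => m₂ fun b => f (a, b) :=
    fun hf => hf.imp fun C hC a => mean_abs_le h₂ fun b => hC _
  refine ⟨fun f => m₁ fun a => m₂ fun b => f (a, b), fun f g hf hg => ?_, fun c f hf => ?_,
    fun f hf h0 => h₁.nonneg _ (hout hf) fun a => h₂.nonneg _ (hin hf a) fun b => h0 _, ?_,
    fun k f hf => ?_⟩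
  · rw [← h₁.add _ _ (hout hf) (hout hg)]
    congr 1
    funext a
    exact h₂.add _ _ (hin hf a) (hin hg a)
  · rw [← h₁.smul c _ (hout hf)]
    congr 1
    funext a
    exact h₂.smul c _ (hin hf a)
  · simp only [mean_const h₂, mean_const h₁]
  · obtain ⟨k₁, k₂⟩ := k
    simp only [Prod.mk_mul_mk]
    refine Eq.trans ?_ (h₁.inv k₁ _ (hout hf))
    congr 1
    funext a
    exact h₂.inv k₂ _ (hin hf _)

end Vale.Agent.P096.Stable
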