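import Vale.Agent.P104.Mean

/-!
# Averages of bounded families of operators against an invariant mean
-/

noncomputable section

namespace Vale.Agent.P096.Stable

open Vale.Agent.P104
open scoped InnerProductSpace

set_option linter.unusedSectionVars false

variable {G : Type*} [Group G] {m : (G → ℝ) → ℝ}
variable {H : Type*} [NormedAddCommGroup H] [InnerProductSpace ℂ H] [CompleteSpace H]

/-- The sharp bound for the complex mean. -/
theorem norm_cmean_le (hm : IsInvariantMean G m) {f : G → ℂ} {C : ℝ} (hC : ∀ g, ‖f g‖ ≤ C) :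
    ‖cmean m f‖ ≤ C := by
  have hf : CBdd f := ⟨C, hC⟩
  obtain ⟨t, ht1, ht⟩ : ∃ t : ℂ, ‖t‖ ≤ 1 ∧ (t * cmean m f).re = ‖cmean m f‖ := by
    rcases eq_or_ne (cmean m f) 0 with h0 | h0
    · exact ⟨0, by simp, by simp [h0]⟩
    · refine ⟨(‖cmean m f‖ : ℂ) / cmean m f, ?_, ?_⟩
      · rw [norm_div, Complex.norm_real, norm_norm, div_self (norm_ne_zero_iff.2 h0)]
      · rw [div_mul_cancel₀ _ h0, Complex.ofReal_re]
  rw [← ht, ← cmean_smul hm t hf, cmean_re]
  refine (le_abs_self _).trans (mean_abs_le hm fun g => (Complex.abs_re_le_norm _).trans ?_)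
  rw [norm_mul]
  exact (mul_le_of_le_one_left (norm_nonneg _) ht1).trans (hC g)

theorem cmean_const (hm : IsInvariantMean G m) (c : ℂ) : cmean m (fun _ : G => c) = c :=
  Complex.ext (by rw [cmean_re, mean_const hm]) (by rw [cmean_im, mean_const hm])

/-- A bounded family of operators. -/
def OpBdd (F : G → (H →L[ℂ] H)) : Prop := ∃ C, ∀ g, ‖F g‖ ≤ C

open Classical in
/-- The mean of a bounded family of operators, in the weak sense. -/
def opMean (hm : IsInvariantMean G m) (F : G → (H →L[ℂ] H)) : H →L[ℂ] H :=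
  if hF : OpBdd F then
    have hcb : ∀ ξ η, CBdd fun g => ⟪F g ξ, η⟫_ℂ := fun ξ η =>
      hF.elim fun C hC => ⟨C * ‖ξ‖ * ‖η‖, fun g => (norm_inner_le_norm _ _).trans
        (mul_le_mul_of_nonneg_right ((F g).le_of_opNorm_le (hC g) ξ) (norm_nonneg _))⟩
    InnerProductSpace.continuousLinearMapOfBilin
      ((LinearMap.mk₂'ₛₗ (starRingEnd ℂ) (RingHom.id ℂ) (fun ξ η => cmean m fun g => ⟪F g ξ, η⟫_ℂ)
        (fun a b η => by simp only [map_add, inner_add_left]; exact cmean_add hm (hcb a η) (hcb b η))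
        (fun c a η => by
          simp only [map_smul, inner_smul_left, smul_eq_mul]; exact cmean_smul hm _ (hcb a η))
        (fun ξ a b => by simp only [inner_add_right]; exact cmean_add hm (hcb ξ a) (hcb ξ b))
        (fun c ξ a => by
          simp only [inner_smul_right, smul_eq_mul, RingHom.id_apply]
          exact cmean_smul hm _ (hcb ξ a))).mkContinuous₂ hF.choose fun ξ η =>
            norm_cmean_le hm fun g => (norm_inner_le_norm _ _).trans
              (mul_le_mul_of_nonneg_right ((F g).le_of_opNorm_le (hF.choose_spec g) ξ)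
                (norm_nonneg _)))
  else 0

theorem inner_opMean (hm : IsInvariantMean G m) {F : G → (H →L[ℂ] H)} (hF : OpBdd F) (ξ η : H) :
    ⟪opMean hm F ξ, η⟫_ℂ = cmean m fun g => ⟪F g ξ, η⟫_ℂ := by
  rw [opMean, dif_pos hF, InnerProductSpace.continuousLinearMapOfBilin_apply]
  rfl

theorem cbdd_inner {F : G → (H →L[ℂ] H)} (hF : OpBdd F) (ξ η : H) :
    CBdd fun g => ⟪F g ξ, η⟫_ℂ :=
  hF.elim fun C hC => ⟨C * ‖ξ‖ * ‖η‖, fun g => (norm_inner_le_norm _ _).trans
    (mul_le_mul_of_nonneg_right ((F g).le_of_opNorm_le (hC g) ξ) (norm_nonneg _))⟩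

theorem opMean_eq (hm : IsInvariantMean G m) {F : G → (H →L[ℂ] H)} (hF : OpBdd F)
    {T : H →L[ℂ] H} (h : ∀ ξ η, ⟪T ξ, η⟫_ℂ = cmean m fun g => ⟪F g ξ, η⟫_ℂ) :
    opMean hm F = T :=
  ContinuousLinearMap.ext fun ξ => ext_inner_right ℂ fun η => by rw [inner_opMean hm hF, h]

theorem norm_opMean_le (hm : IsInvariantMean G m) {F : G → (H →L[ℂ] H)} {C : ℝ}
    (hC : ∀ g, ‖F g‖ ≤ C) : ‖opMean hm F‖ ≤ C := by
  have hC0 : 0 ≤ C := (norm_nonneg _).trans (hC 1)
  refine ContinuousLinearMap.opNorm_le_bound _ hC0 fun ξ => ?_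
  set y := opMean hm F ξ with hy
  have h1 : ‖⟪y, y⟫_ℂ‖ ≤ C * ‖ξ‖ * ‖y‖ := by
    conv_lhs => arg 1; arg 2; rw [hy]
    rw [hy, inner_opMean hm ⟨C, hC⟩]
    exact norm_cmean_le hm fun g => (norm_inner_le_norm _ _).trans
      (mul_le_mul_of_nonneg_right ((F g).le_of_opNorm_le (hC g) ξ) (norm_nonneg _))
  rw [inner_self_eq_norm_sq_to_K, norm_pow, RCLike.norm_ofReal, abs_norm, sq] at h1
  rcases eq_or_lt_of_le (norm_nonneg y) with h | h
  · rw [← h]; positivity
  · exact le_of_mul_le_mul_right h1 h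

theorem opBdd_sub {F : G → (H →L[ℂ] H)} (hF : OpBdd F) (a : H →L[ℂ] H) :
    OpBdd fun g => F g - a :=
  hF.elim fun C hC => ⟨C + ‖a‖, fun g => (norm_sub_le _ _).trans (by linarith [hC g])⟩

theorem opMean_sub_const (hm : IsInvariantMean G m) {F : G → (H →L[ℂ] H)} (hF : OpBdd F)
    (a : H →L[ℂ] H) : opMean hm (fun g => F g - a) = opMean hm F - a := by
  refine opMean_eq hm (opBdd_sub hF a) fun ξ η => ?_
  rw [sub_apply, inner_sub_left, inner_opMean hm hF]
  have h := cmean_add hm (f := fun g => ⟪F g ξ, η⟫_ℂ) (h := fun _ => -⟪a ξ, η⟫_ℂ)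
    (cbdd_inner hF ξ η) ⟨‖⟪a ξ, η⟫_ℂ‖, fun _ => (norm_neg _).le⟩
  rw [cmean_const hm] at h
  rw [sub_eq_add_neg, ← h]
  simp [sub_eq_add_neg]

theorem norm_opMean_sub_le (hm : IsInvariantMean G m) {F : G → (H →L[ℂ] H)} {a : H →L[ℂ] H}
    {C : ℝ} (hC : ∀ g, ‖F g - a‖ ≤ C) : ‖opMean hm F - a‖ ≤ C := by
  have hF : OpBdd F := ⟨C + ‖a‖, fun g => (norm_le_insert' _ _).trans (by linarith [hC g])⟩
  rw [← opMean_sub_const hm hF]
  exact norm_opMean_le hm hC

theorem opMean_shift (hm : IsInvariantMean G m) {F : G → (H →L[ℂ] H)} (hF : OpBdd F) (k : G) :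
    opMean hm (fun g => F (g * k)) = opMean hm F :=
  opMean_eq hm (hF.elim fun C hC => ⟨C, fun g => hC _⟩) fun ξ η => by
    rw [inner_opMean hm hF, ← cmean_inv hm (cbdd_inner hF ξ η) k]

theorem mul_opMean_mul (hm : IsInvariantMean G m) {F : G → (H →L[ℂ] H)} (hF : OpBdd F)
    (a b : H →L[ℂ] H) : opMean hm (fun g => a * F g * b) = a * opMean hm F * b := by
  refine opMean_eq hm (hF.elim fun C hC => ⟨‖a‖ * C * ‖b‖, fun g => (norm_mul_le _ _).trans
    (mul_le_mul_of_nonneg_right ((norm_mul_le _ _).trans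
      (mul_le_mul_of_nonneg_left (hC g) (norm_nonneg _))) (norm_nonneg _))⟩) fun ξ η => ?_
  simp only [mul_apply_eq_comp]
  simp only [← ContinuousLinearMap.adjoint_inner_right a]
  exact inner_opMean hm hF _ _

theorem opMean_star (hm : IsInvariantMean G m) {F : G → (H →L[ℂ] H)} (hF : OpBdd F) :
    opMean hm (fun g => star (F g)) = star (opMean hm F) := by
  refine opMean_eq hm (hF.elim fun C hC => ⟨C, fun g => by rw [norm_star]; exact hC g⟩)
    fun ξ η => ?_
  simp only [ContinuousLinearMap.star_eq_adjoint, ContinuousLinearMap.adjoint_inner_left]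
  rw [← inner_conj_symm ξ (opMean hm F η), inner_opMean hm hF,
    ← cmean_conj hm (cbdd_inner hF η ξ)]
  simp only [inner_conj_symm]

theorem opMean_commute (hm : IsInvariantMean G m) {F : G → (H →L[ℂ] H)} (hF : OpBdd F)
    {x : H →L[ℂ] H} (h : ∀ g, Commute (F g) x) : Commute (opMean hm F) x := by
  have h1 := mul_opMean_mul hm hF x 1
  have h2 := mul_opMean_mul hm hF 1 x
  simp only [mul_one, one_mul] at h1 h2
  have e : (fun g => F g * x) = fun g => x * F g := funext fun g => (h g).eq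
  rw [e, h1] at h2
  exact h2.symm

theorem opMean_const (hm : IsInvariantMean G m) (a : H →L[ℂ] H) :
    opMean hm (fun _ : G => a) = a :=
  opMean_eq hm ⟨‖a‖, fun _ => le_rfl⟩ fun _ _ => (cmean_const hm _).symm

/-- The mean of a product differs from the product of the means by at most the product of the
oscillations. -/
theorem norm_opMean_mul_sub_le (hm : IsInvariantMean G m) {X Y : G → (H →L[ℂ] H)}
    {a b : H →L[ℂ] H} (ha : opMean hm X = a) (hb : opMean hm Y = b) {p q : ℝ}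
    (hX : ∀ g, ‖X g - a‖ ≤ p) (hY : ∀ g, ‖Y g - b‖ ≤ q) :
    ‖opMean hm (fun g => X g * Y g) - a * b‖ ≤ p * q := by
  have hp : 0 ≤ p := (norm_nonneg _).trans (hX 1)
  have hXb : OpBdd X := ⟨p + ‖a‖, fun g => (norm_le_insert' _ _).trans (by linarith [hX g])⟩
  have hYb : OpBdd Y := ⟨q + ‖b‖, fun g => (norm_le_insert' _ _).trans (by linarith [hY g])⟩
  have hD : ∀ g, ‖(X g - a) * (Y g - b)‖ ≤ p * q := fun g =>
    (norm_mul_le _ _).trans (mul_le_mul (hX g) (hY g) (norm_nonneg _) hp)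
  obtain ⟨P, hP⟩ := hXb
  obtain ⟨Q, hQ⟩ := hYb
  have hP0 : 0 ≤ P := (norm_nonneg _).trans (hP 1)
  have hXY : OpBdd fun g => X g * Y g :=
    ⟨P * Q, fun g => (norm_mul_le _ _).trans (mul_le_mul (hP g) (hQ g) (norm_nonneg _) hP0)⟩
  suffices e : opMean hm (fun g => (X g - a) * (Y g - b)) = opMean hm (fun g => X g * Y g) - a * b by
    rw [← e]; exact norm_opMean_le hm hD
  refine opMean_eq hm ⟨_, hD⟩ fun ξ η => ?_
  have eX : ∀ ζ, ⟪a ζ, η⟫_ℂ = cmean m fun g => ⟪X g ζ, η⟫_ℂ := fun ζ => by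
    rw [← ha, inner_opMean hm ⟨P, hP⟩]
  have eY : ∀ ζ, ⟪b ξ, ζ⟫_ℂ = cmean m fun g => ⟪Y g ξ, ζ⟫_ℂ := fun ζ => by
    rw [← hb, inner_opMean hm ⟨Q, hQ⟩]
  have f1 := cbdd_inner hXY ξ η
  have f2 := cbdd_inner (F := X) ⟨P, hP⟩ (b ξ) η
  have f3 := cbdd_inner (F := Y) ⟨Q, hQ⟩ ξ (star a η)
  have f4 : CBdd fun _ : G => ⟪a (b ξ), η⟫_ℂ := ⟨_, fun _ => le_rfl⟩
  have f5 : CBdd fun g => -⟪X g (b ξ), η⟫_ℂ := f2.imp fun C h g => by rw [norm_neg]; exact h g
  have f6 : CBdd fun g => -⟪Y g ξ, star a η⟫_ℂ := f3.imp fun C h g => by rw [norm_neg]; exact h g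
  have f12 : CBdd fun g => ⟪(X g * Y g) ξ, η⟫_ℂ + -⟪X g (b ξ), η⟫_ℂ := by
    obtain ⟨C, hC⟩ := f1
    obtain ⟨D, hD⟩ := f5
    exact ⟨C + D, fun g => (norm_add_le _ _).trans (add_le_add (hC g) (hD g))⟩
  have f34 : CBdd fun g => -⟪Y g ξ, star a η⟫_ℂ + ⟪a (b ξ), η⟫_ℂ := by
    obtain ⟨C, hC⟩ := f6
    obtain ⟨D, hD⟩ := f4
    exact ⟨C + D, fun g => (norm_add_le _ _).trans (add_le_add (hC g) (hD g))⟩
  have neg : ∀ {f : G → ℂ}, CBdd f → cmean m (fun g => -f g) = -cmean m f := fun hf => by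
    simpa using cmean_smul hm (-1) hf
  calc ⟪(opMean hm (fun g => X g * Y g) - a * b) ξ, η⟫_ℂ
      = cmean m (fun g => ⟪(X g * Y g) ξ, η⟫_ℂ) + -cmean m (fun g => ⟪X g (b ξ), η⟫_ℂ) +
          (-cmean m (fun g => ⟪Y g ξ, star a η⟫_ℂ) + ⟪a (b ξ), η⟫_ℂ) := by
        rw [sub_apply, inner_sub_left, inner_opMean hm hXY, ← eX, ← eY,
          ContinuousLinearMap.star_eq_adjoint, ContinuousLinearMap.adjoint_inner_right,
          mul_apply_eq_comp]
        ring
    _ = _ := by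
        rw [← neg f2, ← neg f3, ← cmean_const hm ⟪a (b ξ), η⟫_ℂ, ← cmean_add hm f1 f5,
          ← cmean_add hm f6 f4, ← cmean_add hm f12 f34]
        congr 1
        funext g
        simp only [ContinuousLinearMap.star_eq_adjoint, ContinuousLinearMap.adjoint_inner_right,
          mul_apply_eq_comp, sub_apply, map_sub, inner_sub_left]
        ring

end Vale.Agent.P096.Stable
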