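import Vale.Agent.P096.Defs
import Vale.Agent.P104.Defs

/-!
# Vocabulary for the stability of group von Neumann algebras
-/

noncomputable section

namespace Vale.Agent.P096.Stable

open scoped InnerProductSpace ENNReal

universe u

/-- Square summable complex families. -/
abbrev L2 (X : Type u) : Type u := lp (fun _ : X => ℂ) 2

variable {X : Type u}

theorem norm_sq_l2 (f : L2 X) : ‖f‖ ^ 2 = ∑' x, ‖f x‖ ^ 2 := by
  have h := lp.norm_rpow_eq_tsum (p := 2) (by norm_num) f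
  simp only [ENNReal.toReal_ofNat, Real.rpow_two] at h
  exact h

theorem summable_sq (f : L2 X) : Summable fun x => ‖f x‖ ^ 2 := by
  have h := (lp.memℓp f).summable (by norm_num)
  simp only [ENNReal.toReal_ofNat, Real.rpow_two] at h
  exact h

theorem memℓp_mono (e : X ≃ X) {s : X → ℂ} (hs : ∀ x, ‖s x‖ = 1) (f : L2 X) :
    Memℓp (fun x => s x * f (e.symm x)) 2 := by
  refine memℓp_gen ?_
  simp only [norm_mul, hs, one_mul, ENNReal.toReal_ofNat, Real.rpow_two]
  exact e.symm.summable_iff.2 (summable_sq f)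

/-- The monomial map with permutation `e` and phases `s`. -/
def monoFun (e : X ≃ X) {s : X → ℂ} (hs : ∀ x, ‖s x‖ = 1) (f : L2 X) : L2 X :=
  ⟨fun x => s x * f (e.symm x), memℓp_mono e hs f⟩

theorem monoFun_add (e : X ≃ X) {s : X → ℂ} (hs : ∀ x, ‖s x‖ = 1) (f g : L2 X) :
    monoFun e hs (f + g) = monoFun e hs f + monoFun e hs g :=
  lp.ext (funext fun x => by
    show s x * (f + g) (e.symm x) = s x * f (e.symm x) + s x * g (e.symm x)
    rw [lp.coeFn_add, Pi.add_apply, mul_add])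

theorem monoFun_smul (e : X ≃ X) {s : X → ℂ} (hs : ∀ x, ‖s x‖ = 1) (c : ℂ) (f : L2 X) :
    monoFun e hs (c • f) = c • monoFun e hs f :=
  lp.ext (funext fun x => by
    show s x * (c • f) (e.symm x) = c • (s x * f (e.symm x))
    rw [lp.coeFn_smul, Pi.smul_apply, smul_eq_mul, smul_eq_mul, mul_left_comm])

/-- The monomial map as a linear map. -/
def monoLin (e : X ≃ X) {s : X → ℂ} (hs : ∀ x, ‖s x‖ = 1) : L2 X →ₗ[ℂ] L2 X where
  toFun := monoFun e hs
  map_add' := monoFun_add e hs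
  map_smul' := monoFun_smul e hs

theorem norm_monoLin_le (e : X ≃ X) {s : X → ℂ} (hs : ∀ x, ‖s x‖ = 1) (f : L2 X) :
    ‖monoLin e hs f‖ ≤ 1 * ‖f‖ := by
  rw [one_mul]
  refine le_of_pow_le_pow_left₀ two_ne_zero (norm_nonneg _) (le_of_eq ?_)
  rw [norm_sq_l2, norm_sq_l2]
  show ∑' x, ‖s x * f (e.symm x)‖ ^ 2 = _
  simp only [norm_mul, hs, one_mul]
  exact e.symm.tsum_eq (fun x => ‖f x‖ ^ 2)

/-- The monomial operator with permutation `e` and phases `s`. -/
def monoOp (e : X ≃ X) (s : X → ℂ) (hs : ∀ x, ‖s x‖ = 1) : L2 X →L[ℂ] L2 X :=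
  (monoLin e hs).mkContinuous 1 (norm_monoLin_le e hs)

variable {Γ : Type u} [Group Γ] {I : Type u}

/-- Left translation. -/
def lam (g : Γ) : L2 (Γ × I) →L[ℂ] L2 (Γ × I) :=
  monoOp ((Equiv.mulLeft g).prodCongr (Equiv.refl I)) (fun _ => 1) fun _ => norm_one

/-- Every conjugacy class of `Λ` in `Γ` other than the trivial one is infinite. -/
def RelICC (Λ : Subgroup Γ) : Prop :=
  ∀ g : Γ, g ≠ 1 → (Set.range fun h : Λ => (h : Γ) * g * (h : Γ)⁻¹).Infinite

/-- Almost trivial scalar two-cocycles are coboundaries of almost trivial functions. -/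
def ScalarStable (Γ : Type u) [Group Γ] : Prop :=
  ∃ K η : ℝ, 0 ≤ K ∧ 0 < η ∧ ∀ c : Γ → Γ → ℂ, (∀ g h, ‖c g h‖ = 1) →
    (∀ g h k, c h k * c g (h * k) = c g h * c (g * h) k) →
    ∀ ε : ℝ, ε ≤ η → (∀ g h, ‖c g h - 1‖ ≤ ε) →
      ∃ b : Γ → ℂ, (∀ g, ‖b g‖ = 1) ∧ (∀ g, ‖b g - 1‖ ≤ K * ε) ∧
        ∀ g h, c g h * b (g * h) = b g * b h

/-- The generated algebra. -/
def IsGroupAlg (M : VonNeumannAlgebra (L2 (Γ × I))) : Prop :=
  (M : Set (L2 (Γ × I) →L[ℂ] L2 (Γ × I))) = Set.centralizer (Set.centralizer (Set.range (lam (I := I) : Γ → _)))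

/-- `N` is the conjugate of `M` by a unitary within `ε` of one. -/
def ConjNear {H : Type u} [NormedAddCommGroup H] [InnerProductSpace ℂ H] [CompleteSpace H]
    (M N : VonNeumannAlgebra H) (ε : ℝ) : Prop :=
  ∃ v ∈ unitary (H →L[ℂ] H), ‖v - 1‖ < ε ∧
    (fun x => v * x * star v) '' (M : Set (H →L[ℂ] H)) = (N : Set (H →L[ℂ] H))

/-- The algebra generated by the left translations on the square summable families on `Γ × I`
exists, and for all `I` at once, every von Neumann algebra near it is its conjugate by a unitary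
near one. -/
def StableRegular (Γ : Type u) [Group Γ] : Prop :=
  ∀ ε : ℝ, 0 < ε → ∃ δ : ℝ, 0 < δ ∧ ∀ I : Type u, ∃ M : VonNeumannAlgebra (L2 (Γ × I)),
    IsGroupAlg M ∧ ∀ N, kkDist M N < δ → ConjNear M N ε

end Vale.Agent.P096.Stable
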