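import Vale.Agent.P096.Stable.Lift

/-!
# A countable non-amenable group to which the theorem applies

Permutations of a countable set of rows that move finitely many rows, closed under a countable
family of swindle operations.
-/

noncomputable section

namespace Vale.Agent.P096.Stable.Example

open Vale.Agent.P104
open Equiv

set_option linter.unusedSectionVars false

/-- The set acted on. -/
abbrev X : Type := ℕ × ℕ

/-- Permutations moving only the first `n` rows. -/
def rowsBelow (n : ℕ) : Subgroup (Perm X) where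
  carrier := {g | ∀ p : X, n ≤ p.1 → g p = p}
  one_mem' := fun _ _ => rfl
  mul_mem' {a b} ha hb p hp := by rw [Perm.mul_apply, hb p hp, ha p hp]
  inv_mem' {a} ha p hp := by rw [Perm.inv_eq_iff_eq]; exact (ha p hp).symm

theorem rowsBelow_mono : Monotone rowsBelow := fun _ _ h _ ha p hp => ha p (h.trans hp)

theorem apply_lt {n : ℕ} {g : Perm X} (hg : g ∈ rowsBelow n) {p : X} : (g p).1 < n ↔ p.1 < n := by
  constructor <;> intro h <;> by_contra h'
  · rw [hg p (not_lt.1 h')] at h; exact h' h
  · rw [g.injective (hg _ (not_lt.1 h'))] at h'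
    exact h' h

/-- The first `n + 1` rows. -/
abbrev Low (n : ℕ) : Type := {p : X // p.1 < n + 1}

theorem exists_shelf (n : ℕ) :
    ∃ e : Low n × ℤ ≃ {p : X // p.1 < n + 2}, ∀ x, (e (x, 0) : X) = x := by
  classical
  have : Infinite (Low n) := Infinite.of_injective (fun k => ⟨(0, k), n.succ_pos⟩)
    fun a b h => congrArg Prod.snd (congrArg Subtype.val h)
  have : Nonempty {z : ℤ // z ≠ 0} := ⟨⟨1, one_ne_zero⟩⟩
  have : Infinite (Low n × {z : ℤ // z ≠ 0}) := Prod.infinite_of_left
  have : Infinite {p : X // p.1 = n + 1} := Infinite.of_injective (fun k => ⟨(n + 1, k), rfl⟩)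
    fun a b h => congrArg Prod.snd (congrArg Subtype.val h)
  obtain ⟨e⟩ := nonempty_equiv_of_countable (α := Low n × {z : ℤ // z ≠ 0})
    (β := {p : X // p.1 = n + 1})
  refine ⟨Equiv.ofBijective (fun q => if h : q.2 = 0 then ⟨q.1, Nat.lt_succ_of_lt q.1.2⟩
    else ⟨e (q.1, ⟨q.2, h⟩), by rw [(e _).2]; exact Nat.lt_succ_self _⟩) ⟨?_, ?_⟩, fun x => rfl⟩
  · rintro ⟨x, z⟩ ⟨y, w⟩ h
    by_cases hz : z = 0 <;> by_cases hw : w = 0 <;> simp [hz, hw] at h
    · subst hz; subst hw; rw [Subtype.ext h]
    · exact absurd (congrArg Prod.fst h) (by rw [(e _).2]; exact x.2.ne)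
    · exact absurd (congrArg Prod.fst h).symm (by rw [(e _).2]; exact y.2.ne)
    · have := e.injective (Subtype.ext h)
      simp only [Prod.mk.injEq, Subtype.mk.injEq] at this
      rw [this.1, this.2]
  · rintro ⟨p, hp⟩
    rcases Nat.lt_succ_iff_lt_or_eq.1 hp with h | h
    · exact ⟨(⟨p, h⟩, 0), rfl⟩
    · obtain ⟨⟨x, z, hz⟩, hxz⟩ := e.surjective ⟨p, h⟩
      exact ⟨(x, z), by simp [hz, hxz]⟩

/-- A shelf of copies of the first rows inside one further row. -/
def shelf (n : ℕ) : Low n × ℤ ≃ {p : X // p.1 < n + 2} := (exists_shelf n).choose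

theorem shelf_zero (n : ℕ) (x : Low n) : (shelf n (x, 0) : X) = x := (exists_shelf n).choose_spec x

/-- Act on the copies with index in `Q`. -/
def cut {α : Type} (Q : ℤ → Prop) [DecidablePred Q] : Perm α →* Perm (α × ℤ) where
  toFun g :=
    { toFun := fun q => (if Q q.2 then g q.1 else q.1, q.2)
      invFun := fun q => (if Q q.2 then g⁻¹ q.1 else q.1, q.2)
      left_inv := fun q => by by_cases h : Q q.2 <;> simp [h]
      right_inv := fun q => by by_cases h : Q q.2 <;> simp [h] }
  map_one' := Equiv.ext fun q => by simp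
  map_mul' g h := Equiv.ext fun q => by by_cases hq : Q q.2 <;> simp [hq]

/-- Restriction to the first rows. -/
def toLow (n : ℕ) : rowsBelow (n + 1) →* Perm (Low n) where
  toFun g := (g : Perm X).subtypePerm fun _ => apply_lt g.2
  map_one' := Equiv.ext fun _ => rfl
  map_mul' _ _ := Equiv.ext fun _ => rfl

/-- The action on the copies with index in `Q`. -/
def act (n : ℕ) (Q : ℤ → Prop) [DecidablePred Q] : rowsBelow (n + 1) →* Perm X :=
  (Perm.extendDomainHom (shelf n)).comp ((cut Q).comp (toLow n))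

/-- The shift of the copies. -/
def shift (n : ℕ) : Perm X :=
  Perm.extendDomain ((Equiv.refl (Low n)).prodCongr (Equiv.addRight (1 : ℤ))) (shelf n)

theorem act_apply (n : ℕ) (Q : ℤ → Prop) [DecidablePred Q] (g : rowsBelow (n + 1)) (x : Low n)
    (z : ℤ) : act n Q g (shelf n (x, z)) = shelf n (if Q z then toLow n g x else x, z) :=
  Perm.extendDomain_apply_image _ (shelf n) (x, z)

theorem act_zero (n : ℕ) (g : rowsBelow (n + 1)) : act n (fun z => z = 0) g = (g : Perm X) := by
  refine Equiv.ext fun p => ?_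
  by_cases hp : p.1 < n + 2
  · obtain ⟨⟨x, z⟩, hxz⟩ := (shelf n).surjective ⟨p, hp⟩
    have hp' : p = shelf n (x, z) := (congrArg Subtype.val hxz).symm
    subst hp'
    rw [act_apply]
    by_cases hz : z = 0
    · subst hz
      rw [if_pos rfl, shelf_zero, shelf_zero]
      rfl
    · rw [if_neg hz]
      refine (g.2 _ ?_).symm
      by_contra h
      refine hz (Prod.mk.inj ((shelf n).injective (a₁ := (x, z))
        (a₂ := (⟨_, not_le.1 h⟩, 0)) (Subtype.ext ?_))).2
      rw [shelf_zero]
  · rw [g.2 p (by omega)]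
    exact Perm.extendDomain_apply_not_subtype _ (shelf n) hp

theorem extendDomain_mem (n : ℕ) (σ : Perm (Low n × ℤ)) :
    σ.extendDomain (shelf n) ∈ rowsBelow (n + 2) := fun p hp =>
  Perm.extendDomain_apply_not_subtype _ (shelf n) (by omega)

theorem act_split (n : ℕ) (g : rowsBelow (n + 1)) :
    act n (fun z => 0 ≤ z) g = (g : Perm X) * act n (fun z => 1 ≤ z) g := by
  rw [← act_zero n g]
  refine Eq.trans ?_ (map_mul (Perm.extendDomainHom (shelf n)) _ _)
  refine congrArg (Perm.extendDomainHom (shelf n)) (Equiv.ext fun q => ?_)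
  obtain ⟨x, z⟩ := q
  rcases lt_trichotomy z 0 with h | h | h
  · simp [cut, not_le.2 h, h.ne, show ¬ (1 : ℤ) ≤ z by omega]
  · subst h; simp [cut]
  · simp [cut, h.le, h.ne', show (1 : ℤ) ≤ z by omega]

theorem act_commute (n : ℕ) (g h : rowsBelow (n + 1)) :
    Commute (g : Perm X) (act n (fun z => 1 ≤ z) h) := by
  rw [← act_zero n g]
  refine Commute.map (show Commute (cut (fun z => z = 0) (toLow n g))
    (cut (fun z => (1 : ℤ) ≤ z) (toLow n h)) from Equiv.ext fun q => ?_) (Perm.extendDomainHom (shelf n))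
  obtain ⟨x, z⟩ := q
  by_cases hz : z = 0
  · subst hz; simp [cut]
  · simp [cut, hz]

theorem shift_conj (n : ℕ) (g : rowsBelow (n + 1)) :
    shift n * act n (fun z => 0 ≤ z) g * (shift n)⁻¹ = act n (fun z => 1 ≤ z) g := by
  rw [mul_inv_eq_iff_eq_mul]
  show Perm.extendDomainHom (shelf n) _ * Perm.extendDomainHom (shelf n) _ =
    Perm.extendDomainHom (shelf n) _ * Perm.extendDomainHom (shelf n) _
  rw [← map_mul, ← map_mul]
  refine congrArg (Perm.extendDomainHom (shelf n)) (Equiv.ext fun q => ?_)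
  obtain ⟨x, z⟩ := q
  by_cases hz : (0 : ℤ) ≤ z <;> simp [cut, hz]

open Classical in
/-- The swindle operation. -/
def op (n : ℕ) (g : Perm X) : Perm X :=
  if h : g ∈ rowsBelow (n + 1) then act n (fun z => 0 ≤ z) ⟨g, h⟩ else 1

theorem exists_pingpong (i : ℕ) (hi : i < 4) (j : ℕ) (hj : j < 4) :
    ∃ a : Perm ℕ, ∀ k, a k % 4 = i ↔ k % 4 ≠ j := by
  classical
  have hinf : ∀ i < 4, Infinite {k : ℕ // k % 4 = i} ∧ Infinite {k : ℕ // ¬ k % 4 = i} := fun i hi =>
    ⟨Infinite.of_injective (fun k : ℕ => (⟨4 * k + i, by omega⟩ : {k : ℕ // k % 4 = i}))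
      (fun a b h => by simpa using congrArg Subtype.val h),
    Infinite.of_injective (fun k : ℕ => (⟨4 * k + (i + 1) % 4, by omega⟩ : {k : ℕ // ¬ k % 4 = i}))
      (fun a b h => by simpa using congrArg Subtype.val h)⟩
  obtain ⟨_, hi2⟩ := hinf i hi
  obtain ⟨hi1, _⟩ := hinf i hi
  obtain ⟨hj1, hj2⟩ := hinf j hj
  obtain ⟨e₁⟩ := nonempty_equiv_of_countable (α := {k : ℕ // k % 4 = j}) (β := {k : ℕ // ¬ k % 4 = i})
  obtain ⟨e₂⟩ := nonempty_equiv_of_countable (α := {k : ℕ // ¬ k % 4 = j}) (β := {k : ℕ // k % 4 = i})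
  refine ⟨(Equiv.sumCompl (fun k : ℕ => k % 4 = j)).symm.trans ((Equiv.sumCongr e₁ e₂).trans
    ((Equiv.sumComm _ _).trans (Equiv.sumCompl (fun k : ℕ => k % 4 = i)))), fun k => ?_⟩
  by_cases hk : k % 4 = j
  · simp [Equiv.sumCompl_symm_apply_of_pos (p := fun k : ℕ => k % 4 = j) hk, hk, (e₁ _).2]
  · simp [Equiv.sumCompl_symm_apply_of_neg (p := fun k : ℕ => k % 4 = j) hk, hk, (e₂ _).2]

/-- A permutation of the first row. -/
def row0 (σ : Perm ℕ) : Perm X where
  toFun p := if p.1 = 0 then (0, σ p.2) else p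
  invFun p := if p.1 = 0 then (0, σ.symm p.2) else p
  left_inv p := by
    obtain ⟨a, b⟩ := p
    by_cases h : a = 0 <;> simp [h]
  right_inv p := by
    obtain ⟨a, b⟩ := p
    by_cases h : a = 0 <;> simp [h]

theorem row0_mem (σ : Perm ℕ) : row0 σ ∈ rowsBelow 1 := fun p hp => if_neg (by omega)

/-- Two ping-pong permutations of the first row. -/
def pingA : Perm ℕ := (exists_pingpong 0 (by norm_num) 1 (by norm_num)).choose
/-- Two ping-pong permutations of the first row. -/
def pingB : Perm ℕ := (exists_pingpong 2 (by norm_num) 3 (by norm_num)).choose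

/-- The seeds. -/
def seeds : Set (Perm X) :=
  (Set.range fun q : X × X => Equiv.swap q.1 q.2) ∪ Set.range shift ∪ {row0 pingA, row0 pingB}

/-- The stages. -/
def stage : ℕ → Subgroup (Perm X)
  | 0 => Subgroup.closure seeds
  | k + 1 => Subgroup.closure
      ((stage k : Set (Perm X)) ∪ (fun q : ℕ × Perm X => op q.1 q.2) '' (Set.univ ×ˢ (stage k : Set (Perm X))))

theorem stage_mono : Monotone stage := monotone_nat_of_le_succ fun _ _ hx =>
  Subgroup.subset_closure (Or.inl hx)

/-- The group. -/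
def G : Subgroup (Perm X) := ⨆ k, stage k

theorem mem_G {g : Perm X} : g ∈ G ↔ ∃ k, g ∈ stage k :=
  Subgroup.mem_iSup_of_directed stage_mono.directed_le

theorem countable_closure {H : Type} [Group H] {s : Set H} (hs : s.Countable) :
    (Subgroup.closure s : Set H).Countable := by
  have : Countable s := hs
  have : Countable (FreeGroup s) := Quot.mk_surjective.countable
  have e : Subgroup.closure s = (FreeGroup.lift (Subtype.val : s → H)).range := by
    rw [FreeGroup.range_lift_eq_closure, Subtype.range_coe]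
  rw [e]
  exact Set.countable_range _

instance countable_G : Countable G := by
  have hseed : seeds.Countable :=
    ((Set.countable_range _).union (Set.countable_range _)).union (Set.to_countable _)
  have hst : ∀ k, (stage k : Set (Perm X)).Countable := fun k => by
    induction k with
    | zero => exact countable_closure hseed
    | succ k ih => exact countable_closure (ih.union ((Set.countable_univ.prod ih).image _))
  have : (G : Set (Perm X)) = ⋃ k, (stage k : Set (Perm X)) := Set.ext fun g => by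
    simp [mem_G]
  exact ((Set.countable_iUnion hst).mono this.le).to_subtype

theorem swap_mem (a b : X) : Equiv.swap a b ∈ G :=
  mem_G.2 ⟨0, Subgroup.subset_closure (Or.inl (Or.inl ⟨(a, b), rfl⟩))⟩

theorem shift_mem (n : ℕ) : shift n ∈ G :=
  mem_G.2 ⟨0, Subgroup.subset_closure (Or.inl (Or.inr ⟨n, rfl⟩))⟩

theorem op_mem (n : ℕ) {g : Perm X} (hg : g ∈ G) : op n g ∈ G := by
  obtain ⟨k, hk⟩ := mem_G.1 hg
  exact mem_G.2 ⟨k + 1, Subgroup.subset_closure (Or.inr ⟨(n, g), ⟨Set.mem_univ _, hk⟩, rfl⟩)⟩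

/-- Permutations moving finitely many rows. -/
def finRows : Subgroup (Perm X) := ⨆ n, rowsBelow n

theorem mem_finRows {g : Perm X} : g ∈ finRows ↔ ∃ n, g ∈ rowsBelow n :=
  Subgroup.mem_iSup_of_directed rowsBelow_mono.directed_le

theorem G_le : G ≤ finRows := by
  refine iSup_le fun k => ?_
  induction k with
  | zero =>
    refine (Subgroup.closure_le _).2 ?_
    rintro g ((⟨⟨a, b⟩, rfl⟩ | ⟨n, rfl⟩) | rfl | rfl)
    · refine mem_finRows.2 ⟨a.1 + b.1 + 1, fun p hp => Equiv.swap_apply_of_ne_of_ne ?_ ?_⟩ <;>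
        (intro h; have := congrArg Prod.fst h; dsimp at *; omega)
    · exact mem_finRows.2 ⟨n + 2, extendDomain_mem n _⟩
    · exact mem_finRows.2 ⟨1, row0_mem _⟩
    · exact mem_finRows.2 ⟨1, row0_mem _⟩
  | succ k ih =>
    refine (Subgroup.closure_le _).2 ?_
    rintro g (hg | ⟨⟨n, a⟩, -, rfl⟩)
    · exact ih hg
    · show op n a ∈ finRows
      unfold op
      split_ifs
      · exact mem_finRows.2 ⟨n + 2, extendDomain_mem n _⟩
      · exact one_mem _

theorem scalarStable : ScalarStable G := by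
  refine scalarStable_of_exhaustion (fun n => (rowsBelow (n + 1)).comap G.subtype)
    (fun a b h _ hx => rowsBelow_mono (Nat.succ_le_succ h) hx) (fun g => ?_) fun n => ?_
  · obtain ⟨n, hn⟩ := mem_finRows.1 (G_le g.2)
    exact ⟨n, rowsBelow_mono n.le_succ hn⟩
  · let ι : (rowsBelow (n + 1)).comap G.subtype →* rowsBelow (n + 1) :=
      MonoidHom.mk' (fun x => ⟨(x : G), x.2⟩) fun _ _ => rfl
    have hE : ∀ x, act n (fun z => 0 ≤ z) (ι x) ∈ G := fun x => by
      have h := op_mem n (x : G).2
      rw [op, dif_pos (show ((x : G) : Perm X) ∈ rowsBelow (n + 1) from x.2)] at h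
      exact h
    have hF : ∀ x, act n (fun z => 1 ≤ z) (ι x) ∈ G := fun x => by
      rw [← shift_conj]
      exact mul_mem (mul_mem (shift_mem n) (hE x)) (inv_mem (shift_mem n))
    exact ⟨((act n fun z => 0 ≤ z).comp ι).codRestrict G hE,
      ((act n fun z => 1 ≤ z).comp ι).codRestrict G hF, ⟨shift n, shift_mem n⟩,
      fun h => Subtype.ext (act_split n (ι h)),
      fun h k => Subtype.ext (act_commute n (ι h) (ι k)).eq,
      fun h => Subtype.ext (shift_conj n (ι h))⟩

/-- Elements moving finitely many points. -/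
def fin : Subgroup G where
  carrier := {g | {p : X | (g : Perm X) p ≠ p}.Finite}
  one_mem' := by simp
  mul_mem' {a b} ha hb := (ha.union hb).subset fun p hp => by
    by_contra h
    simp only [Set.mem_union, Set.mem_ofPred_eq, not_or, not_not] at h
    exact hp (by show (a : Perm X) ((b : Perm X) p) = p; rw [h.2, h.1])
  inv_mem' {a} ha := ha.subset fun p hp h => hp (by
    show (a : Perm X)⁻¹ p = p
    rw [Perm.inv_eq_iff_eq, h])

theorem fin_normal : fin.Normal := ⟨fun a ha g => (ha.image (g : Perm X)).subset fun p hp => by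
  refine ⟨(g : Perm X)⁻¹ p, fun h => hp ?_, Equiv.apply_symm_apply _ _⟩
  show (g : Perm X) ((a : Perm X) ((g : Perm X)⁻¹ p)) = p
  rw [h]; exact Equiv.apply_symm_apply _ _⟩

theorem amenable_fin : Amenable fin := by
  classical
  refine amenable_of_locallyFinite fun s => ?_
  set S : Set X := ⋃ g ∈ s, {p | ((g : G) : Perm X) p ≠ p}
  have hS : S.Finite := Set.Finite.biUnion s.finite_toSet fun g _ => g.2
  let K : Subgroup fin :=
    { carrier := {g | ∀ p, p ∉ S → ((g : G) : Perm X) p = p}
      one_mem' := fun p _ => rfl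
      mul_mem' := fun {a b} ha hb p hp => by
        show ((a : G) : Perm X) (((b : G) : Perm X) p) = p
        rw [hb p hp, ha p hp]
      inv_mem' := fun {a} ha p hp => by
        show ((a : G) : Perm X)⁻¹ p = p
        rw [Perm.inv_eq_iff_eq, ha p hp] }
  refine ⟨K, fun g hg p hp => ?_, ?_⟩
  · by_contra h
    exact hp (Set.mem_biUnion hg h)
  · have : Finite S := hS
    let f : fin → (S → S) := fun g i =>
      if h : ((g : G) : Perm X) i ∈ S then ⟨_, h⟩ else i
    refine Set.Finite.of_finite_image (f := f) (Set.toFinite _) fun a ha b hb hab => ?_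
    refine Subtype.ext (Subtype.ext (Equiv.ext fun p => ?_))
    by_cases hp : p ∈ S
    · have key : ∀ g : fin, (∀ q, q ∉ S → ((g : G) : Perm X) q = q) → ((g : G) : Perm X) p ∈ S :=
        fun g hg => by
          by_contra h
          exact h (by rwa [((g : G) : Perm X).injective (hg _ h)])
      have e := congrArg Subtype.val (congrFun hab ⟨p, hp⟩)
      simpa [f, key a ha, key b hb] using e
    · rw [ha p hp, hb p hp]

theorem relICC : RelICC fin := fun g hg => by
  obtain ⟨a, ha⟩ : ∃ a : X, (g : Perm X) a ≠ a := by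
    by_contra h
    push Not at h
    exact hg (Subtype.ext (Equiv.ext h))
  set b := (g : Perm X) a
  have hfin : ∀ c, (⟨Equiv.swap b c, swap_mem b c⟩ : G) ∈ fin := fun c =>
    ((Set.finite_singleton c).insert b).subset fun p hp => by
      by_contra h
      simp only [Set.mem_insert_iff, Set.mem_singleton_iff, not_or] at h
      exact hp (Equiv.swap_apply_of_ne_of_ne h.1 h.2)
  refine Set.Infinite.of_image (fun k : G => (k : Perm X) a) ?_
  refine ((Set.finite_singleton b).insert a).infinite_compl.mono fun c hc => ?_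
  simp only [Set.mem_compl_iff, Set.mem_insert_iff, Set.mem_singleton_iff, not_or] at hc
  refine ⟨_, ⟨⟨_, hfin c⟩, rfl⟩, ?_⟩
  show Equiv.swap b c ((g : Perm X) ((Equiv.swap b c)⁻¹ a)) = c
  rw [Equiv.swap_inv, Equiv.swap_apply_of_ne_of_ne (Ne.symm ha) (Ne.symm hc.1), Equiv.swap_apply_left]

theorem not_amenable : ¬ Amenable G := by
  classical
  rintro ⟨m, hm⟩
  set H : Subgroup G := (rowsBelow 1).comap G.subtype
  set r : G → G := fun p => (Quotient.out (QuotientGroup.mk p : G ⧸ H))⁻¹ * p with hr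
  have hrH : ∀ p, r p ∈ H := fun p =>
    QuotientGroup.eq.1 (QuotientGroup.out_eq' (QuotientGroup.mk p : G ⧸ H))
  have hrk : ∀ p, ∀ k ∈ H, r (p * k) = r p * k := fun p k hk => by
    simp only [hr]
    rw [QuotientGroup.eq.2 (show (p * k)⁻¹ * p ∈ H by simpa [mul_assoc] using hk), mul_assoc]
  set φ : G → ℕ := fun p => ((r p : Perm X)⁻¹ ((0, 0) : X)).2 with hφ
  have hrow : ∀ p, ((r p : Perm X)⁻¹ ((0, 0) : X)).1 = 0 := fun p => by
    have := (apply_lt (inv_mem (s := rowsBelow 1) (hrH p)) (p := ((0, 0) : X))).2 Nat.zero_lt_one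
    exact Nat.lt_one_iff.1 this
  set ind : ℕ → G → ℝ := fun i p => if φ p % 4 = i then 1 else 0
  have hb : ∀ i, IsBdd (ind i) := fun i => ⟨1, fun p => by
    simp only [ind]; split_ifs <;> simp⟩
  have pp : ∀ (i j : ℕ) (σ : Perm ℕ) (hσG : row0 σ ∈ G), (∀ k, σ k % 4 = i ↔ k % 4 ≠ j) →
      m (ind i) + m (ind j) = 1 := by
    intro i j σ hσG hσ
    set k : G := ⟨row0 σ, hσG⟩
    have hk : k ∈ H := row0_mem σ
    have hφk : ∀ p, σ (φ (p * k)) = φ p := fun p => by
      simp only [hφ]
      rw [hrk p k hk, Subgroup.coe_mul, mul_inv_rev, Perm.mul_apply]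
      have h0 := hrow p
      generalize ((r p : Perm X)⁻¹ ((0, 0) : X)) = q at h0 ⊢
      obtain ⟨q1, q2⟩ := q
      subst h0
      show σ ((row0 σ)⁻¹ (0, q2)).2 = q2
      simp [row0]
    have e : (fun p => ind j (p * k) + ind i p) = fun _ => (1 : ℝ) := funext fun p => by
      have h1 := hσ (φ (p * k))
      rw [hφk] at h1
      simp only [ind]
      by_cases hi : φ p % 4 = i
      · simp [hi, h1.1 hi]
      · simp [hi, not_not.1 fun h => hi (h1.2 h)]
    have h := congrArg m e
    rw [hm.one] at h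
    rw [show (fun p => ind j (p * k) + ind i p) = (fun p => ind j (p * k)) + ind i from rfl,
      hm.add _ _ ((hb j).imp fun C hC p => hC _) (hb i), hm.inv k _ (hb j)] at h
    linarith
  have hA := pp 0 1 pingA (mem_G.2 ⟨0, Subgroup.subset_closure (Or.inr (Or.inl rfl))⟩)
    (exists_pingpong 0 (by norm_num) 1 (by norm_num)).choose_spec
  have hB := pp 2 3 pingB (mem_G.2 ⟨0, Subgroup.subset_closure (Or.inr (Or.inr rfl))⟩)
    (exists_pingpong 2 (by norm_num) 3 (by norm_num)).choose_spec
  have e : ind 0 + ind 1 + (ind 2 + ind 3) = fun _ => (1 : ℝ) := funext fun p => by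
    simp only [Pi.add_apply, ind]
    have := Nat.mod_lt (φ p) (show 0 < 4 by norm_num)
    interval_cases h : φ p % 4 <;> simp
  have badd : ∀ {f g : G → ℝ}, IsBdd f → IsBdd g → IsBdd (f + g) := fun ⟨C, hC⟩ ⟨D, hD⟩ =>
    ⟨C + D, fun x => (abs_add_le _ _).trans (add_le_add (hC x) (hD x))⟩
  have h := congrArg m e
  rw [hm.one, hm.add _ _ (badd (hb 0) (hb 1)) (badd (hb 2) (hb 3)), hm.add _ _ (hb 0) (hb 1),
    hm.add _ _ (hb 2) (hb 3)] at h
  linarith

end Vale.Agent.P096.Stable.Example
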