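import Vale.Agent.P096.Stable.Example
import Vale.Agent.P096.Commutant

/-!
# Strong stability of regular representations
-/

noncomputable section

namespace Vale.Agent.P096.Stable

open Vale.Agent.P104
open scoped InnerProductSpace

universe u

/-- The von Neumann algebra generated by the translations. -/
theorem exists_groupAlg (Γ : Type u) [Group Γ] (I : Type u) :
    ∃ M : VonNeumannAlgebra (L2 (Γ × I)), IsGroupAlg M := by
  set R : Set (L2 (Γ × I) →L[ℂ] L2 (Γ × I)) := Set.range (lam (I := I) : Γ → _)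
  have hR : star R = R := by
    ext x
    constructor
    · rintro ⟨g, hg⟩
      exact ⟨g⁻¹, by rw [← star_lam, hg, star_star]⟩
    · rintro ⟨g, rfl⟩
      exact ⟨g⁻¹, (star_lam g).symm⟩
  have e : ∀ (S : Set (L2 (Γ × I) →L[ℂ] L2 (Γ × I))), star S = S →
      (StarSubalgebra.centralizer ℂ S : Set (L2 (Γ × I) →L[ℂ] L2 (Γ × I))) = Set.centralizer S :=
    fun S hS => by rw [StarSubalgebra.coe_centralizer, hS, Set.union_self]
  have hC : star (Set.centralizer R) = Set.centralizer R := by
    rw [← e R hR]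
    ext x
    simp only [Set.mem_star, SetLike.mem_coe, star_mem_iff]
  exact ⟨⟨StarSubalgebra.centralizer ℂ (Set.centralizer R), by
      show Set.centralizer (Set.centralizer
        (StarSubalgebra.centralizer ℂ (Set.centralizer R) : Set (L2 (Γ × I) →L[ℂ] L2 (Γ × I)))) = _
      erw [e _ hC]
      rw [Set.centralizer_centralizer_centralizer]
      exact (e _ hC).symm⟩, e _ hC⟩

theorem stableRegular (hD : Sim.DistOut.{u}) {Γ : Type u} [Group Γ] {Λ : Subgroup Γ}
    (hΛ : Λ.Normal) (ham : Amenable Λ) (hicc : RelICC Λ) (hst : ScalarStable Γ) :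
    StableRegular Γ := by
  obtain ⟨k, hk⟩ := commutant_continuity hD
  obtain ⟨K, η, hK, hη, hstab⟩ := hst
  intro ε hε
  set k' := max k 1 with hk'
  have hk1 : 1 ≤ k' := le_max_right _ _
  set δ := min (min 1 η) ε / (10 ^ 9 * (K + 1) * (k' + 1)) with hδ
  have hpos : 0 < min (min 1 η) ε := lt_min (lt_min one_pos hη) hε
  have hδ0 : 0 < δ := by positivity
  refine ⟨δ, hδ0, fun I => ?_⟩
  obtain ⟨M, hM⟩ := exists_groupAlg Γ I
  refine ⟨M, hM, fun N hN => ?_⟩
  have hd0 : 0 ≤ kkDist M N := Metric.hausdorffDist_nonneg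
  have h1 : kkDist M N < (k' + 1) * δ := hN.trans_le (le_mul_of_one_le_left hδ0.le (by linarith))
  have h2 : kkDist M.commutant N.commutant < (k' + 1) * δ :=
    lt_of_le_of_lt ((hk _ M N).trans (mul_le_mul_of_nonneg_right (le_max_left _ _) hd0))
      (lt_of_le_of_lt (mul_le_mul_of_nonneg_left hN.le (by linarith)) (by nlinarith))
  refine exists_conj hΛ hicc ham hM hK hstab (s := (k' + 1) * δ) hε (le_of_eq ?_)
    (fun x hx hx1 => kk_exists_near h1 hx hx1)
    (fun y hy hy1 => kk_exists_near (M := N) (N := M) (by rwa [kk_comm]) hy hy1)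
    fun x hx hx1 => kk_exists_near h2 hx hx1
  rw [hδ]
  field_simp

end Vale.Agent.P096.Stable
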