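import Vale.Agent.P096.Stable.Main

/-!
# A swindle for almost trivial scalar cocycles

If a subgroup is one summand of infinitely many commuting copies of itself inside the group, an
almost trivial cocycle has an almost trivial primitive on it.
-/

noncomputable section

namespace Vale.Agent.P096.Stable

universe u

set_option linter.unusedSectionVars false

/-- An element of the circle all of whose powers are close to one is one. -/
theorem circle_eq_one {z : Circle} (h : ∀ n : ℕ, ‖((z ^ n : Circle) : ℂ) - 1‖ ≤ 1 / 2) : z = 1 := by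
  have key : ∀ n : ℕ, (3 / 2 : ℝ) ^ n * ‖(z : ℂ) - 1‖ ≤ ‖((z ^ 2 ^ n : Circle) : ℂ) - 1‖ := by
    intro n
    induction n with
    | zero => simp
    | succ n ih =>
      set w : ℂ := ((z ^ 2 ^ n : Circle) : ℂ) with hw
      have e : ((z ^ 2 ^ (n + 1) : Circle) : ℂ) - 1 = (w - 1) * (w + 1) := by
        rw [pow_succ, pow_mul, Circle.coe_pow, hw]; ring
      have h2 : 3 / 2 ≤ ‖w + 1‖ := by
        have h1 := norm_sub_norm_le (2 : ℂ) (1 - w)
        rw [norm_sub_rev 1 w, Complex.norm_two, show (2 : ℂ) - (1 - w) = w + 1 by ring] at h1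
        linarith [h (2 ^ n)]
      rw [e, norm_mul, pow_succ, mul_right_comm]
      exact mul_le_mul ih h2 (by norm_num) (norm_nonneg _)
  by_contra hz
  have hpos : 0 < ‖(z : ℂ) - 1‖ :=
    norm_pos_iff.2 fun h0 => hz (Circle.ext (by simpa using sub_eq_zero.1 h0))
  obtain ⟨n, hn⟩ := pow_unbounded_of_one_lt (1 / ‖(z : ℂ) - 1‖) (by norm_num : (1 : ℝ) < 3 / 2)
  rw [div_lt_iff₀ hpos] at hn
  linarith [key n, h (2 ^ n)]

theorem norm_coe_mul_sub_one_le (a b : Circle) :
    ‖((a * b : Circle) : ℂ) - 1‖ ≤ ‖(a : ℂ) - 1‖ + ‖(b : ℂ) - 1‖ := by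
  rw [Circle.coe_mul, show (a : ℂ) * b - 1 = (a : ℂ) * ((b : ℂ) - 1) + ((a : ℂ) - 1) by ring]
  refine (norm_add_le _ _).trans ?_
  rw [norm_mul, Circle.norm_coe, one_mul, add_comm]

theorem norm_coe_inv_sub_one (a : Circle) : ‖((a⁻¹ : Circle) : ℂ) - 1‖ = ‖(a : ℂ) - 1‖ := by
  rw [Circle.coe_inv_eq_conj, show (starRingEnd ℂ) (a : ℂ) - 1 = starRingEnd ℂ ((a : ℂ) - 1) by simp,
    RCLike.norm_conj]

/-- A circle valued two-cocycle. -/
structure Cocycle (Γ : Type u) [Group Γ] where
  /-- The values. -/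
  val : Γ → Γ → Circle
  assoc : ∀ g h k, val h k * val g (h * k) = val g h * val (g * h) k

variable {Γ : Type u} [Group Γ]

theorem Cocycle.one_left (c : Cocycle Γ) (k : Γ) : c.val 1 k = c.val 1 1 := by
  have := c.assoc 1 1 k
  simp only [one_mul] at this
  exact mul_right_cancel this

theorem Cocycle.one_right (c : Cocycle Γ) (g : Γ) : c.val g 1 = c.val 1 1 := by
  have := c.assoc g 1 1
  simp only [mul_one] at this
  exact (mul_right_cancel this).symm

/-- The extension of the group by the circle along a cocycle. -/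
@[ext] structure Tw (c : Cocycle Γ) where
  /-- The phase. -/
  t : Circle
  /-- The group element. -/
  g : Γ

variable {c : Cocycle Γ}

instance : Mul (Tw c) := ⟨fun x y => ⟨x.t * y.t * c.val x.g y.g, x.g * y.g⟩⟩
instance : One (Tw c) := ⟨⟨(c.val 1 1)⁻¹, 1⟩⟩
instance : Inv (Tw c) := ⟨fun x => ⟨(c.val 1 1)⁻¹ * (x.t * c.val x.g⁻¹ x.g)⁻¹, x.g⁻¹⟩⟩

instance : Group (Tw c) :=
  Group.ofLeftAxioms
    (fun x y z => by
      refine Tw.ext ?_ (mul_assoc _ _ _)
      show x.t * y.t * c.val x.g y.g * z.t * c.val (x.g * y.g) z.g =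
        x.t * (y.t * z.t * c.val y.g z.g) * c.val x.g (y.g * z.g)
      calc _ = x.t * y.t * z.t * (c.val x.g y.g * c.val (x.g * y.g) z.g) := by
            simp only [mul_assoc, mul_comm, mul_left_comm]
        _ = _ := by
            rw [← c.assoc]; simp only [mul_assoc])
    (fun x => by
      refine Tw.ext ?_ (one_mul _)
      show (c.val 1 1)⁻¹ * x.t * c.val 1 x.g = x.t
      rw [c.one_left x.g, mul_comm (c.val 1 1)⁻¹, inv_mul_cancel_right])
    (fun x => by
      refine Tw.ext ?_ (inv_mul_cancel _)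
      show (c.val 1 1)⁻¹ * (x.t * c.val x.g⁻¹ x.g)⁻¹ * x.t * c.val x.g⁻¹ x.g = (c.val 1 1)⁻¹
      rw [mul_assoc, inv_mul_cancel_right])

/-- The deviation of an element from the canonical section. -/
def dev (x : Tw c) : ℝ := ‖(x.t : ℂ) - 1‖

/-- The central circle. -/
def scal (z : Circle) : Tw c := ⟨z * (c.val 1 1)⁻¹, 1⟩

theorem scal_mul (z : Circle) (x : Tw c) : scal z * x = ⟨z * x.t, x.g⟩ := by
  refine Tw.ext ?_ (one_mul _)
  show z * (c.val 1 1)⁻¹ * x.t * c.val 1 x.g = z * x.t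
  rw [c.one_left x.g, mul_assoc z, mul_comm (c.val 1 1)⁻¹, mul_assoc, inv_mul_cancel_right]

theorem scal_central (z : Circle) (x : Tw c) : Commute (scal z) x := by
  show scal z * x = x * scal z
  rw [scal_mul]
  refine Tw.ext ?_ (mul_one _).symm
  show z * x.t = x.t * (z * (c.val 1 1)⁻¹) * c.val x.g 1
  rw [c.one_right x.g, ← mul_assoc, inv_mul_cancel_right, mul_comm]

theorem eq_scal_mul {x y : Tw c} (h : x.g = y.g) : x = scal (x.t / y.t) * y := by
  rw [scal_mul]
  exact Tw.ext (div_mul_cancel _ _).symm h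

theorem scal_pow (z : Circle) : ∀ n : ℕ, (scal z : Tw c) ^ n = scal (z ^ n) := by
  intro n
  induction n with
  | zero =>
    rw [pow_zero, pow_zero]
    exact Tw.ext (one_mul _).symm rfl
  | succ n ih =>
    rw [pow_succ', ih, scal_mul]
    exact Tw.ext (by simp [scal, pow_succ', mul_assoc]) rfl

theorem scal_injective {z w : Circle} (h : (scal z : Tw c) = scal w) : z = w :=
  mul_right_cancel (congrArg Tw.t h)

section small

variable {ε : ℝ} (hε : ∀ g h, ‖(c.val g h : ℂ) - 1‖ ≤ ε)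
include hε

theorem dev_mul (x y : Tw c) : dev (x * y) ≤ dev x + dev y + ε :=
  (norm_coe_mul_sub_one_le _ _).trans (add_le_add (norm_coe_mul_sub_one_le _ _) (hε _ _))

theorem dev_inv (x : Tw c) : dev x⁻¹ ≤ dev x + 2 * ε := by
  refine (norm_coe_mul_sub_one_le _ _).trans ?_
  rw [norm_coe_inv_sub_one, norm_coe_inv_sub_one]
  refine le_trans (add_le_add (hε _ _) ((norm_coe_mul_sub_one_le _ _).trans
    (add_le_add le_rfl (hε _ _)))) (le_of_eq ?_)
  rw [dev]; ring

/-- Lifts of commuting elements commute. -/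
theorem lift_commute (hε0 : ε ≤ 1 / 4) {x y : Tw c} (h : Commute x.g y.g) : Commute x y := by
  set r : Circle := (x * y).t / (y * x).t with hr
  have hxy : ∀ {a b : Tw c}, Commute a.g b.g → a * b = scal ((a * b).t / (b * a).t) * (b * a) :=
    fun hab => eq_scal_mul hab.eq
  have hbound : ∀ {a b : Tw c}, ‖(((a * b).t / (b * a).t : Circle) : ℂ) - 1‖ ≤ 1 / 2 := fun {a b} => by
    have e : (a * b).t / (b * a).t = c.val a.g b.g * (c.val b.g a.g)⁻¹ := by
      show a.t * b.t * c.val a.g b.g / (b.t * a.t * c.val b.g a.g) = _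
      rw [mul_comm b.t a.t, mul_div_mul_left_eq_div, div_eq_mul_inv]
    rw [e]
    refine (norm_coe_mul_sub_one_le _ _).trans ?_
    rw [norm_coe_inv_sub_one]
    linarith [hε a.g b.g, hε b.g a.g]
  have hr1 : r = 1 := circle_eq_one fun n => by
    have h1 : x * y * x⁻¹ = scal r * y := by
      rw [hxy h, ← hr, mul_assoc (scal r), mul_assoc y, mul_inv_cancel, mul_one]
    have h2 : (x * y * x⁻¹) ^ n = scal (r ^ n) * y ^ n := by
      rw [h1, (scal_central r y).mul_pow, scal_pow]
    rw [conj_pow] at h2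
    have hg : ∀ k : ℕ, Commute x.g (y ^ k).g := fun k => by
      induction k with
      | zero => exact Commute.one_right _
      | succ k ih => rw [pow_succ]; exact ih.mul_right h
    rw [hxy (hg n), mul_assoc (scal _), mul_assoc (y ^ n), mul_inv_cancel, mul_one] at h2
    rw [← scal_injective (mul_right_cancel h2)]
    exact hbound
  show x * y = y * x
  rw [hxy h, ← hr, hr1, scal_mul, one_mul]

/-- Two almost canonical multiplicative sections agree. -/
theorem section_unique {G : Type u} [Group G] {f₁ f₂ : G →* Tw c}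
    (hg : ∀ h, (f₁ h).g = (f₂ h).g) (h1 : ∀ h, dev (f₁ h) ≤ 1 / 4) (h2 : ∀ h, dev (f₂ h) ≤ 1 / 4)
    (h : G) : f₁ h = f₂ h := by
  set r : Circle := (f₁ h).t / (f₂ h).t
  have hb : ∀ k, ‖(((f₁ k).t / (f₂ k).t : Circle) : ℂ) - 1‖ ≤ 1 / 2 := fun k => by
    rw [div_eq_mul_inv]
    refine (norm_coe_mul_sub_one_le _ _).trans ?_
    rw [norm_coe_inv_sub_one]
    have := h1 k; have := h2 k
    simp only [dev] at *
    linarith
  have hr : r = 1 := circle_eq_one fun n => by
    have e : (f₁ h) ^ n = scal (r ^ n) * (f₂ h) ^ n := by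
      conv_lhs => rw [eq_scal_mul (hg h)]
      rw [(scal_central r (f₂ h)).mul_pow, scal_pow]
    rw [← map_pow, ← map_pow, eq_scal_mul (hg (h ^ n))] at e
    rw [← scal_injective (mul_right_cancel e)]
    exact hb _
  rw [eq_scal_mul (hg h), scal_mul]
  exact Tw.ext (by show r * _ = _; rw [hr, one_mul]) rfl

end small

/-- The swindle: `E = D F` with `F` a conjugate of `E` and commuting with `D`. -/
theorem exists_section {ε : ℝ} (hε : ∀ g h, ‖(c.val g h : ℂ) - 1‖ ≤ ε) (hε0 : ε ≤ 1 / 4)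
    {G : Type u} [Group G] (D E F : G →* Γ) (s : Γ) (hE : ∀ h, E h = D h * F h)
    (hDF : ∀ h k, Commute (D h) (F k)) (hs : ∀ h, s * E h * s⁻¹ = F h) :
    ∃ L : G →* Tw c, (∀ h, (L h).g = D h) ∧ ∀ h, dev (L h) ≤ 7 * ε := by
  set e : G → Tw c := fun h => ⟨1, E h⟩ with he
  set σ : Tw c := ⟨1, s⟩
  set f : G → Tw c := fun h => σ * e h * σ⁻¹ with hf
  have hfg : ∀ h, (f h).g = F h := fun h => hs h
  set d : G → Tw c := fun h => e h * (f h)⁻¹ with hd
  have hdg : ∀ h, (d h).g = D h := fun h => by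
    show E h * (f h).g⁻¹ = D h
    rw [hfg, hE, mul_inv_cancel_right]
  have hcomm : ∀ h k, Commute (f h) (d k) := fun h k => lift_commute hε hε0 (by
    rw [hfg, hdg]; exact (hDF k h).symm)
  have hmul : ∀ h k, d (h * k) = d h * d k := fun h k => by
    have hee : e h * e k = scal (c.val (E h) (E k)) * e (h * k) := by
      rw [scal_mul]
      exact Tw.ext (by show (1 : Circle) * 1 * c.val (E h) (E k) = c.val (E h) (E k) * 1; simp)
        (map_mul E h k).symm
    have hff : f h * f k = scal (c.val (E h) (E k)) * f (h * k) := by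
      simp only [hf]
      rw [show σ * e h * σ⁻¹ * (σ * e k * σ⁻¹) = σ * (e h * e k) * σ⁻¹ by group, hee,
        ← mul_assoc σ, ← (scal_central _ σ).eq]
      group
    have hde : ∀ h, d h * f h = e h := fun h => inv_mul_cancel_right _ _
    have key : e h * e k = d h * d k * (f h * f k) := by
      rw [← hde h, ← hde k, mul_assoc (d h), ← mul_assoc (f h), (hcomm h k).eq]
      simp only [mul_assoc]
    rw [hee, hff, ← mul_assoc (d h * d k), ← (scal_central _ (d h * d k)).eq, mul_assoc] at key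
    have h3 := mul_left_cancel key
    show e (h * k) * (f (h * k))⁻¹ = d h * d k
    rw [h3, mul_inv_cancel_right]
  refine ⟨MonoidHom.mk' d hmul, fun h => hdg h, fun h => ?_⟩
  show dev (e h * (f h)⁻¹) ≤ _
  have h0 : ∀ g : Γ, dev (⟨1, g⟩ : Tw c) = 0 := fun g => by simp [dev]
  have h1 := dev_mul hε (e h) (f h)⁻¹
  have h2 := dev_inv hε (f h)
  have h3 := dev_mul hε (σ * e h) σ⁻¹
  have h4 := dev_mul hε σ (e h)
  have h5 := dev_inv hε σ
  have h6 : dev (f h) = dev (σ * e h * σ⁻¹) := rfl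
  have := h0 (E h); have := h0 s
  simp only [he] at *
  simp only [σ] at *
  linarith

/-- A group exhausted by subgroups that admit the swindle is scalar stable. -/
theorem scalarStable_of_exhaustion (G : ℕ → Subgroup Γ) (hG : Monotone G)
    (hcov : ∀ g, ∃ n, g ∈ G n)
    (hsw : ∀ n, ∃ (E F : G n →* Γ) (s : Γ), (∀ h : G n, E h = (h : Γ) * F h) ∧
      (∀ h k : G n, Commute (h : Γ) (F k)) ∧ ∀ h, s * E h * s⁻¹ = F h) :
    ScalarStable Γ := by
  refine ⟨7, 1 / 32, by norm_num, by norm_num, fun c₀ hn hc ε hε hc1 => ?_⟩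
  let c : Cocycle Γ := ⟨fun g h => ⟨c₀ g h, mem_sphere_zero_iff_norm.2 (hn g h)⟩,
    fun g h k => Circle.ext (hc g h k)⟩
  have hc' : ∀ g h, ‖(c.val g h : ℂ) - 1‖ ≤ ε := hc1
  choose E F s hE hDF hs using hsw
  choose L hLg hLd using fun n => exists_section hc' (by linarith) (G n).subtype (E n) (F n) (s n)
    (hE n) (hDF n) (hs n)
  have hcompat : ∀ {n m : ℕ} (hnm : n ≤ m) (x : G n), L n x = L m ⟨x, hG hnm x.2⟩ :=
    fun {n m} hnm x => section_unique hc' (f₁ := L n) (f₂ := (L m).comp (Subgroup.inclusion (hG hnm)))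
      (fun y => by rw [hLg, MonoidHom.comp_apply, hLg]; rfl)
      (fun y => (hLd n y).trans (by linarith)) (fun y => (hLd m _).trans (by linarith)) x
  choose idx hidx using hcov
  set b : Γ → Circle := fun g => ((L (idx g) ⟨g, hidx g⟩).t)⁻¹ with hb
  have hbm : ∀ {g m} (hg : g ∈ G m), b g = ((L m ⟨g, hg⟩).t)⁻¹ := fun {g m} hg => by
    simp only [hb]
    congr 1
    rcases le_total (idx g) m with h | h
    · exact congrArg Tw.t (hcompat h ⟨g, hidx g⟩)
    · exact congrArg Tw.t (hcompat h ⟨g, hg⟩).symm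
  refine ⟨fun g => (b g : ℂ), fun g => Circle.norm_coe _, fun g => ?_, fun g h => ?_⟩
  · show ‖((b g : Circle) : ℂ) - 1‖ ≤ _
    rw [hb, norm_coe_inv_sub_one]
    exact hLd _ _
  · set m := max (idx g) (idx h)
    have hg : g ∈ G m := hG (le_max_left _ _) (hidx g)
    have hh : h ∈ G m := hG (le_max_right _ _) (hidx h)
    have key : b g * b h = c.val g h * b (g * h) := by
      rw [hbm hg, hbm hh, hbm (mul_mem hg hh)]
      have e : L m ⟨g * h, mul_mem hg hh⟩ = L m ⟨g, hg⟩ * L m ⟨h, hh⟩ := by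
        rw [← map_mul]; rfl
      have e2 : (L m ⟨g * h, mul_mem hg hh⟩).t =
          (L m ⟨g, hg⟩).t * (L m ⟨h, hh⟩).t * c.val g h := by
        rw [e]
        show _ * _ * c.val _ _ = _
        rw [hLg, hLg]
        rfl
      rw [e2, mul_inv_rev, mul_inv_cancel_left, mul_inv]
    exact (congrArg Subtype.val key).symm

end Vale.Agent.P096.Stable
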