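import Vale.Agent.P096.Stable.Setting

/-!
# Algebras close to a group von Neumann algebra

`ScalarStable` says that almost trivial scalar cocycles are boundaries of almost trivial
functions.
-/

noncomputable section

namespace Vale.Agent.P096.Stable

open Vale.Agent.P104
open scoped InnerProductSpace

universe u

set_option linter.unusedSectionVars false

variable {H : Type u} [NormedAddCommGroup H] [InnerProductSpace ℂ H] [CompleteSpace H]

/-- Conjugation is isometric. -/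
theorem norm_conj {U : H →L[ℂ] H} (hU : U ∈ unitary (H →L[ℂ] H)) (z : H →L[ℂ] H) :
    ‖U * z * star U‖ = ‖z‖ := by
  refine le_antisymm ?_ ?_
  · refine (norm_mul_le _ _).trans ((mul_le_of_le_one_right (norm_nonneg _) ?_).trans
      ((norm_mul_le _ _).trans (mul_le_of_le_one_left (norm_nonneg _) (norm_le_one_of_unitary hU))))
    rw [norm_star]; exact norm_le_one_of_unitary hU
  · calc ‖z‖ = ‖star U * (U * z * star U) * U‖ := by
          simp only [← mul_assoc, Unitary.star_mul_self_of_mem hU, one_mul]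
          rw [mul_assoc, Unitary.star_mul_self_of_mem hU, mul_one]
      _ ≤ _ := (norm_mul_le _ _).trans ((mul_le_of_le_one_right (norm_nonneg _)
          (norm_le_one_of_unitary hU)).trans ((norm_mul_le _ _).trans
          (mul_le_of_le_one_left (norm_nonneg _) (by rw [norm_star]; exact norm_le_one_of_unitary hU))))

theorem norm_conj_sub_le {U : H →L[ℂ] H} (hU : U ∈ unitary (H →L[ℂ] H)) {η : ℝ}
    (h : ‖U - 1‖ ≤ η) {y : H →L[ℂ] H} (hy : ‖y‖ ≤ 1) : ‖U * y * star U - y‖ ≤ 2 * η := by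
  have e : U * y * star U - y = (U - 1) * y * star U + y * (star U - 1) := by noncomm_ring
  have hs : ‖star U - 1‖ ≤ η := by rwa [← norm_star, star_sub, star_star, star_one]
  rw [e, two_mul]
  refine (norm_add_le _ _).trans (add_le_add ?_ ?_)
  · refine (norm_mul_le _ _).trans ((mul_le_of_le_one_right (norm_nonneg _) ?_).trans
      ((norm_mul_le _ _).trans ((mul_le_of_le_one_right (norm_nonneg _) hy).trans h)))
    rw [norm_star]; exact norm_le_one_of_unitary hU
  · exact (norm_mul_le _ _).trans ((mul_le_of_le_one_left (norm_nonneg _) hy).trans hs)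

theorem commute_conj_iff {U : H →L[ℂ] H} (hU : U ∈ unitary (H →L[ℂ] H)) {x z : H →L[ℂ] H} :
    Commute (U * x * star U) (U * z * star U) ↔ Commute x z := by
  have key : ∀ {V : H →L[ℂ] H}, V ∈ unitary (H →L[ℂ] H) → ∀ {a b : H →L[ℂ] H}, Commute a b →
      Commute (V * a * star V) (V * b * star V) := fun {V} hV {a b} hab => by
    show V * a * star V * (V * b * star V) = V * b * star V * (V * a * star V)
    simp only [mul_assoc]
    rw [← mul_assoc (star V) V, Unitary.star_mul_self_of_mem hV, one_mul,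
      ← mul_assoc (star V) V, Unitary.star_mul_self_of_mem hV, one_mul, ← mul_assoc a b,
      ← mul_assoc b a, hab.eq]
  refine ⟨fun h => ?_, key hU⟩
  have h2 := key (Unitary.star_mem hU) h
  have e : ∀ w : H →L[ℂ] H, star U * (U * w * star U) * star (star U) = w := fun w => by
    rw [star_star]
    simp only [← mul_assoc, Unitary.star_mul_self_of_mem hU, one_mul]
    rw [mul_assoc, Unitary.star_mul_self_of_mem hU, mul_one]
  rwa [e, e] at h2

theorem conj_conj_star {U : H →L[ℂ] H} (hU : U ∈ unitary (H →L[ℂ] H)) (y : H →L[ℂ] H) :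
    U * (star U * y * U) * star U = y := by
  simp only [← mul_assoc, Unitary.mul_star_self_of_mem hU, one_mul]
  rw [mul_assoc, Unitary.mul_star_self_of_mem hU, mul_one]

theorem mem_iff_comm (N : VonNeumannAlgebra H) {x : H →L[ℂ] H} :
    x ∈ N ↔ ∀ z ∈ N.commutant, Commute x z := by
  conv_lhs => rw [← N.commutant_commutant, VonNeumannAlgebra.mem_commutant_iff]
  exact forall₂_congr fun z _ => ⟨fun h => h.symm, fun h => h.symm⟩

theorem mem_commutant_iff_comm (N : VonNeumannAlgebra H) {x : H →L[ℂ] H} :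
    x ∈ N.commutant ↔ ∀ z ∈ N, Commute x z := by
  rw [VonNeumannAlgebra.mem_commutant_iff]
  exact forall₂_congr fun z _ => ⟨fun h => h.symm, fun h => h.symm⟩

/-- A closed star algebra whose unit ball is near the scalars consists of scalars. -/
theorem scalar_of_near {S : Set (H →L[ℂ] H)} {γ : ℝ} (hγ : γ < 1)
    (hnear : ∀ y ∈ Comm S, ‖y‖ ≤ 1 → ∃ t : ℂ, ‖y - t • 1‖ ≤ γ) {h : H →L[ℂ] H}
    (hh : IsSelfAdjoint h) (hS : h ∈ Comm S) : ∃ t : ℂ, h = t • 1 := by
  rcases subsingleton_or_nontrivial (H →L[ℂ] H) with hH | hH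
  · exact ⟨0, Subsingleton.elim _ _⟩
  obtain ⟨s, hs⟩ := (ContinuousFunctionalCalculus.spectrum_nonempty (R := ℝ) h hh)
  refine ⟨(s : ℂ), ?_⟩
  have hall : ∀ t ∈ spectrum ℝ h, t = s := by
    intro t ht
    by_contra hne
    set f : ℝ → ℝ := fun x => max (-1) (min 1 (2 * (x - s) / (t - s) - 1)) with hf
    have hfc : Continuous f := by fun_prop
    have hfb : ∀ x, |f x| ≤ 1 := fun x =>
      abs_le.2 ⟨le_max_left _ _, max_le (by norm_num) (min_le_left _ _)⟩
    have hfs : f s = -1 := by simp [hf]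
    have hft : f t = 1 := by
      have : 2 * (t - s) / (t - s) = 2 := mul_div_cancel_right₀ 2 (sub_ne_zero.2 hne)
      simp [hf, this]
      norm_num
    obtain ⟨c, hc⟩ := hnear (cfc f h) (fun z hz => (hS z hz).cfc_real _)
      (norm_cfc_le zero_le_one fun x _ => by rw [Real.norm_eq_abs]; exact hfb x)
    have hre : ‖cfc f h - (c.re : ℂ) • 1‖ ≤ γ := by
      have e : cfc f h - (c.re : ℂ) • 1 =
          (2⁻¹ : ℂ) • ((cfc f h - c • 1) + star (cfc f h - c • 1)) := by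
        rw [star_sub, star_smul, star_one, (IsSelfAdjoint.cfc (f := f) (a := h)).star_eq]
        have hc2 : (c.re : ℂ) = 2⁻¹ * c + 2⁻¹ * star c := by
          rw [Complex.star_def, ← mul_add, Complex.add_conj]; push_cast; ring
        rw [hc2]
        module
      rw [e, norm_smul, norm_inv, Complex.norm_two]
      have := norm_add_le (cfc f h - c • 1) (star (cfc f h - c • 1))
      rw [norm_star] at this
      linarith
    have e2 : cfc f h - (c.re : ℂ) • 1 = cfc (fun x => f x - c.re) h := by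
      rw [cfc_sub _ _ h hfc.continuousOn continuousOn_const, cfc_const _ h,
        Algebra.algebraMap_eq_smul_one, Complex.coe_smul]
    rw [e2] at hre
    have h1 := (norm_apply_le_norm_cfc (fun x => f x - c.re) h hs
      ((hfc.sub continuous_const).continuousOn)).trans hre
    have h2 := (norm_apply_le_norm_cfc (fun x => f x - c.re) h ht
      ((hfc.sub continuous_const).continuousOn)).trans hre
    rw [Real.norm_eq_abs, hfs, abs_le] at h1
    rw [Real.norm_eq_abs, hft, abs_le] at h2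
    linarith
  calc h = cfc (fun x : ℝ => x) h := (cfc_id' ℝ h).symm
    _ = cfc (fun _ : ℝ => s) h := cfc_congr fun t ht => hall t ht
    _ = (s : ℂ) • 1 := by rw [cfc_const _ h, Algebra.algebraMap_eq_smul_one, Complex.coe_smul]

variable {Γ : Type u} [Group Γ] {I : Type u}

theorem IsGroupAlg.mem_iff {M : VonNeumannAlgebra (L2 (Γ × I))} (hM : IsGroupAlg M)
    {x : L2 (Γ × I) →L[ℂ] L2 (Γ × I)} : x ∈ M ↔ ∀ z, (∀ g : Γ, Commute (lam g) z) → Commute x z := by
  rw [← SetLike.mem_coe, hM, Set.mem_centralizer_iff]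
  refine forall_congr' fun z => ?_
  rw [Set.mem_centralizer_iff]
  constructor
  · intro h hz
    exact (h (by rintro _ ⟨g, rfl⟩; exact hz g)).symm
  · intro h hz
    exact (h fun g => hz _ ⟨g, rfl⟩).symm

theorem IsGroupAlg.lam_mem {M : VonNeumannAlgebra (L2 (Γ × I))} (hM : IsGroupAlg M) (g : Γ) :
    lam g ∈ M := hM.mem_iff.2 fun _ hz => hz g

variable {Λ : Subgroup Γ} {M N : VonNeumannAlgebra (L2 (Γ × I))}

/-- A unitary near one moves the translations by `Λ` into `N` and the right translations by `Λ`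
and the signs into its commutant. -/
theorem exists_base (ham : Amenable Λ) (hM : IsGroupAlg M) {s : ℝ}
    (hs1 : 10 ^ 9 * s ≤ 1)
    (nearN : ∀ x ∈ M, ‖x‖ ≤ 1 → ∃ y ∈ N, ‖y‖ ≤ 1 ∧ ‖x - y‖ < s)
    (nearN' : ∀ x ∈ M.commutant, ‖x‖ ≤ 1 → ∃ y ∈ N.commutant, ‖y‖ ≤ 1 ∧ ‖x - y‖ < s) :
    ∃ U ∈ unitary (L2 (Γ × I) →L[ℂ] L2 (Γ × I)), ‖U - 1‖ ≤ 90000 * s ∧
      (∀ h : Λ, U * lam (h : Γ) * star U ∈ N) ∧
      ∀ (h : Λ) (d : Signs I), U * rop (h : Γ) (d : I → ℤˣ) * star U ∈ N.commutant := by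
  classical
  obtain ⟨_, _, -, hs0'⟩ := nearN _ (zero_mem M) (by simp)
  have hs0 : 0 < s := (norm_nonneg _).trans_lt hs0'
  have hlamM := hM.lam_mem
  have hropM : ∀ g d, rop g d ∈ M.commutant := fun g d => (mem_commutant_iff_comm M).2 fun z hz =>
    ((hM.mem_iff.1 hz) _ fun k => lam_commute_rop k g d).symm
  -- align the left translations by `Λ`
  obtain ⟨m, hm⟩ := ham
  obtain ⟨u₁, hu₁, hu₁n, hu₁N, -⟩ := exists_align hm ((lamHom (I := I)).comp Λ.subtype)
    (P := {z | z ∈ N.commutant}) (fun z hz => star_mem (s := N.commutant) hz) (γ := s) (by linarith) fun g => by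
      obtain ⟨y, hy, -, hd⟩ := nearN _ (hlamM g) (norm_le_one_of_unitary (lam_mem_unitary _))
      refine ⟨y, (mem_iff_comm N).1 hy, ?_⟩
      rw [norm_sub_rev]; exact hd.le
  -- align the right translations by `Λ` and the signs
  set P₁ : Set (L2 (Γ × I) →L[ℂ] L2 (Γ × I)) := {z | u₁ * z * star u₁ ∈ N} with hP₁
  obtain ⟨m₂, hm₂⟩ := amenable_prod ⟨m, hm⟩ (amenable_signs I)
  obtain ⟨u₂, hu₂, hu₂n, hu₂P, hu₂c⟩ := exists_align hm₂ (ropHom (I := I) Λ) (P := P₁)
    (fun z hz => by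
      show u₁ * star z * star u₁ ∈ N
      simpa [mul_assoc] using star_mem (s := N) hz) (γ := 421 * s) (by linarith) fun p => by
      obtain ⟨y, hy, hy1, hd⟩ := nearN' _ (hropM p.1 p.2)
        (norm_le_one_of_unitary (monoOp_mem_unitary _ _ _))
      refine ⟨star u₁ * y * u₁, fun z hz => ?_, ?_⟩
      · rw [← commute_conj_iff hu₁, conj_conj_star hu₁]
        exact (mem_commutant_iff_comm N).1 hy _ hz
      · have h1 : ‖star u₁ * y * u₁ - y‖ ≤ 2 * (210 * s) := by
          have := norm_conj_sub_le (Unitary.star_mem hu₁) (η := 210 * s)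
            (by rwa [← norm_star, star_sub, star_star, star_one]) hy1
          rwa [star_star] at this
        have h2 := norm_sub_le_norm_sub_add_norm_sub (star u₁ * y * u₁) y
          (ropHom (I := I) Λ p : L2 (Γ × I) →L[ℂ] L2 (Γ × I))
        rw [norm_sub_rev y] at h2
        have h3 : ‖(ropHom (I := I) Λ p : L2 (Γ × I) →L[ℂ] L2 (Γ × I)) - y‖ < s := hd
        linarith
  set U := u₁ * u₂ with hU
  have hUu : U ∈ unitary (L2 (Γ × I) →L[ℂ] L2 (Γ × I)) := mul_mem hu₁ hu₂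
  set ζ := 90000 * s with hζ
  have hUn : ‖U - 1‖ ≤ ζ := by
    have e : U - 1 = (u₁ - 1) * u₂ + (u₂ - 1) := by rw [hU]; noncomm_ring
    rw [e]
    refine (norm_add_le _ _).trans (le_trans (add_le_add ((norm_mul_le _ _).trans
      (mul_le_of_le_one_right (norm_nonneg _) (norm_le_one_of_unitary hu₂))) le_rfl) ?_)
    linarith
  have hconjU : ∀ x, U * x * star U = u₁ * (u₂ * x * star u₂) * star u₁ := fun x => by
    rw [hU, star_mul]; simp only [mul_assoc]
  have hUlam : ∀ h : Λ, U * lam (h : Γ) * star U ∈ N := fun h => by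
    have hc : Commute u₂ (lam (h : Γ)) := hu₂c _ (fun p => (lam_commute_rop _ _ _).symm) fun y hy =>
      hy _ ((mem_iff_comm N).2 (hu₁N h))
    rw [hconjU, hc.eq, mul_assoc (lam (h : Γ)), Unitary.mul_star_self_of_mem hu₂, mul_one]
    exact (mem_iff_comm N).2 (hu₁N h)
  have hUrop : ∀ (h : Λ) (d : Signs I),
      U * rop (h : Γ) (d : I → ℤˣ) * star U ∈ N.commutant := fun h d => by
    rw [hconjU]
    refine (mem_commutant_iff_comm N).2 fun z hz => ?_
    rw [← conj_conj_star hu₁ z, commute_conj_iff hu₁]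
    exact hu₂P (h, d) _ (show u₁ * (star u₁ * z * u₁) * star u₁ ∈ N by rwa [conj_conj_star hu₁])
  exact ⟨U, hUu, hUn, hUlam, hUrop⟩

/-- The conjugated algebra as a commutant. -/
abbrev pre (N : VonNeumannAlgebra (L2 (Γ × I))) (U : L2 (Γ × I) →L[ℂ] L2 (Γ × I)) : Set (L2 (Γ × I) →L[ℂ] L2 (Γ × I)) :=
  {z | U * z * star U ∈ N.commutant}

theorem star_mem_pre {U : L2 (Γ × I) →L[ℂ] L2 (Γ × I)} : ∀ z ∈ pre N U, star z ∈ pre N U := fun z hz => by
  show U * star z * star U ∈ N.commutant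
  simpa [mul_assoc] using star_mem (s := N.commutant) hz

theorem mem_comm_pre {U : L2 (Γ × I) →L[ℂ] L2 (Γ × I)} (hUu : U ∈ unitary (L2 (Γ × I) →L[ℂ] L2 (Γ × I))) {x : L2 (Γ × I) →L[ℂ] L2 (Γ × I)} :
    x ∈ Comm (pre N U) ↔ U * x * star U ∈ N := by
  rw [mem_iff_comm]
  constructor
  · intro h z hz
    rw [← conj_conj_star hUu z, commute_conj_iff hUu]
    exact h _ (show U * (star U * z * U) * star U ∈ N.commutant by rwa [conj_conj_star hUu])
  · intro h z hz
    exact (commute_conj_iff hUu).1 (h _ hz)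

/-- The relative commutant of the translations by `Λ` is trivial. -/
theorem comm_scalar (hΛ : Λ.Normal) (hicc : RelICC Λ) (ham : Amenable Λ) (hM : IsGroupAlg M)
    {s ζ : ℝ} (hsζ : s ≤ ζ) (hζ1 : 3 * ζ < 1) {U : L2 (Γ × I) →L[ℂ] L2 (Γ × I)} (hUu : U ∈ unitary (L2 (Γ × I) →L[ℂ] L2 (Γ × I)))
    (hUn : ‖U - 1‖ ≤ ζ)
    (nearM : ∀ y ∈ N, ‖y‖ ≤ 1 → ∃ x ∈ M, ‖x‖ ≤ 1 ∧ ‖y - x‖ < s) :
    ∀ z ∈ Comm (pre N U ∪ Set.range fun h : Λ => lam (I := I) (h : Γ)), ∃ t : ℂ, z = t • 1 := by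
  classical
  obtain ⟨m, hm⟩ := ham
  have hP₂s := star_mem_pre (N := N) (U := U)
  have memN : ∀ {x}, x ∈ Comm (pre N U) ↔ U * x * star U ∈ N := mem_comm_pre hUu
  have memM := @IsGroupAlg.mem_iff _ _ _ _ hM
  -- the relative commutant of the translations by `Λ` is trivial
  set S₀ : Set (L2 (Γ × I) →L[ℂ] L2 (Γ × I)) :=
    (pre N U) ∪ Set.range fun h : Λ => lam (I := I) (h : Γ) with hS₀
  have hS₀s : ∀ z ∈ S₀, star z ∈ S₀ := by
    rintro z (hz | ⟨h, rfl⟩)
    · exact Or.inl (hP₂s z hz)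
    · exact Or.inr ⟨h⁻¹, by simp [star_lam]⟩
  have hnear : ∀ y ∈ Comm S₀, ‖y‖ ≤ 1 → ∃ t : ℂ, ‖y - t • 1‖ ≤ 3 * ζ := fun y hy hy1 => by
    obtain ⟨x, hx, -, hd⟩ := nearM _ (memN.1 fun z hz => hy z (Or.inl hz))
      (by rw [norm_conj hUu]; exact hy1)
    have hxy : ‖x - y‖ ≤ 3 * ζ := by
      have h1 := norm_sub_le_norm_sub_add_norm_sub x (U * y * star U) y
      rw [norm_sub_rev x (U * y * star U)] at h1
      linarith [norm_conj_sub_le hUu hUn hy1]
    set F := fun h : Λ => star (lam (I := I) (h : Γ)) * x * lam (h : Γ)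
    have hFy : ∀ h, ‖F h - y‖ ≤ 3 * ζ := fun h => by
      have hc : lam (I := I) (h : Γ) * y = y * lam (h : Γ) := (hy _ (Or.inr ⟨h, rfl⟩)).eq.symm
      have e : F h - y = star (lam (I := I) (h : Γ)) * (x - y) * lam (h : Γ) := by
        rw [mul_sub, sub_mul, mul_assoc _ y, ← hc, ← mul_assoc _ (lam (h : Γ)) y,
          Unitary.star_mul_self_of_mem (lam_mem_unitary _), one_mul]
      rw [e]
      refine (norm_mul_le _ _).trans ((mul_le_of_le_one_right (norm_nonneg _)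
        (norm_le_one_of_unitary (lam_mem_unitary _))).trans ((norm_mul_le _ _).trans
        ((mul_le_of_le_one_left (norm_nonneg _) ?_).trans hxy)))
      exact norm_le_one_of_unitary (Unitary.star_mem (lam_mem_unitary _))
    have hFb : OpBdd F := ⟨3 * ζ + ‖y‖, fun h => (norm_le_insert' (F h) y).trans (by linarith [hFy h])⟩
    obtain ⟨t, ht⟩ := exists_scalar hΛ hicc (a := opMean hm F)
      (fun z hz => opMean_commute hm hFb fun h => by
        refine (Commute.mul_left ?_ (memM.1 hx z hz)).mul_left (hz _)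
        rw [star_lam]; exact hz _)
      (fun k => by
        have h1 : star (lam (I := I) (k : Γ)) * opMean hm F * lam (k : Γ) = opMean hm F := by
          rw [← mul_opMean_mul hm hFb]
          conv_rhs => rw [← opMean_shift hm hFb k]
          congr 1
          funext h
          simp only [F, Subgroup.coe_mul, lam_mul, star_mul, mul_assoc]
        show lam (I := I) (k : Γ) * opMean hm F = opMean hm F * lam (k : Γ)
        conv_lhs => rw [← h1, ← mul_assoc, ← mul_assoc,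
          Unitary.mul_star_self_of_mem (lam_mem_unitary _), one_mul])
    refine ⟨t, ?_⟩
    rw [← ht, norm_sub_rev]
    exact norm_opMean_sub_le hm hFy
  have hscalar : ∀ z ∈ Comm S₀, ∃ t : ℂ, z = t • 1 := fun z hz => by
    have hzs := star_mem_comm hS₀s hz
    obtain ⟨a, ha⟩ := scalar_of_near (by linarith : 3 * ζ < 1) hnear
      (IsSelfAdjoint.add_star_self z) fun w hw => (hz w hw).add_left (hzs w hw)
    obtain ⟨b, hb⟩ := scalar_of_near (by linarith : 3 * ζ < 1) hnear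
      (h := Complex.I • (z - star z)) (by
        rw [isSelfAdjoint_iff, star_smul, star_sub, star_star, Complex.star_def, Complex.conj_I,
          neg_smul, ← smul_neg, neg_sub])
      fun w hw => ((hz w hw).sub_left (hzs w hw)).smul_left _
    refine ⟨(a - Complex.I * b) / 2, ?_⟩
    have hz2 : z = (2⁻¹ : ℂ) • ((z + star z) - Complex.I • (Complex.I • (z - star z))) := by
      rw [smul_smul, Complex.I_mul_I]; module
    rw [hz2, ha, hb]
    module
  exact hscalar

/-- Implementers of the conjugation by the group elements. -/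
theorem exists_implementer (hΛ : Λ.Normal) (ham : Amenable Λ) (hM : IsGroupAlg M)
    {s ζ : ℝ} (hsζ : s ≤ ζ) (hζ1 : 3 * ζ < 1 / 16) {U : L2 (Γ × I) →L[ℂ] L2 (Γ × I)} (hUu : U ∈ unitary (L2 (Γ × I) →L[ℂ] L2 (Γ × I)))
    (hUn : ‖U - 1‖ ≤ ζ) (hUlam : ∀ h : Λ, U * lam (h : Γ) * star U ∈ N)
    (nearN : ∀ x ∈ M, ‖x‖ ≤ 1 → ∃ y ∈ N, ‖y‖ ≤ 1 ∧ ‖x - y‖ < s) (g : Γ) :
    ∃ v ∈ unitary (L2 (Γ × I) →L[ℂ] L2 (Γ × I)), ‖v - lam g‖ ≤ 16 * ζ ∧
      v ∈ Comm (pre N U) ∧ (∀ h : Λ, lam (g * h * g⁻¹) * v = v * lam (h : Γ)) := by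
  obtain ⟨m, hm⟩ := ham
  have hP₂s := star_mem_pre (N := N) (U := U)
  have memN : ∀ {x}, x ∈ Comm (pre N U) ↔ U * x * star U ∈ N := mem_comm_pre hUu
  have hlamM := hM.lam_mem
  obtain ⟨y, hy, hy1, hd⟩ := nearN _ (hlamM g) (norm_le_one_of_unitary (lam_mem_unitary _))
  set y' := star U * y * U with hy'
  have hy'1 : ‖y' - lam g‖ ≤ 4 * ζ := by
    have h1 : ‖y' - y‖ ≤ 2 * ζ := by
      have := norm_conj_sub_le (Unitary.star_mem hUu) (η := ζ)
        (by rwa [← norm_star, star_sub, star_star, star_one]) hy1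
      rwa [star_star] at this
    have h2 := norm_sub_le_norm_sub_add_norm_sub y' y (lam g)
    rw [norm_sub_rev y (lam g)] at h2
    linarith [norm_nonneg (lam (I := I) g - y)]
  have hy'P : y' ∈ Comm (pre N U) := memN.2 (by rw [hy', conj_conj_star hUu]; exact hy)
  let conjHom : Λ →* Γ := (MulAut.conj g).toMonoidHom.comp Λ.subtype
  obtain ⟨v, hv, hvg, hvw, hvc⟩ := exists_intertwine hm ((lamHom (I := I)).comp conjHom)
    ((lamHom (I := I)).comp Λ.subtype) (lam_mem_unitary g) (fun h => by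
      show lam (g * h * g⁻¹) * lam g = lam g * lam (h : Γ)
      rw [← lam_mul, ← lam_mul, inv_mul_cancel_right]) (by linarith : 4 * ζ ≤ 1 / 8) hy'1
  refine ⟨v, hv, by linarith, fun z hz => ?_, fun h => hvw h⟩
  refine hvc z (hy'P z hz) (star_mem_comm hP₂s hy'P z hz) (fun h => ?_) fun h => ?_
  · exact memN.2 (hUlam ⟨g * h * g⁻¹, hΛ.conj_mem _ h.2 g⟩) z hz
  · exact memN.2 (hUlam h) z hz

/-- The normalised coefficients. -/
theorem exists_coef (hΛ : Λ.Normal) (hicc : RelICC Λ) {e₁ : ℝ} {U : L2 (Γ × I) →L[ℂ] L2 (Γ × I)}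
    (hUrop : ∀ (h : Λ) (d : Signs I), U * rop (h : Γ) (d : I → ℤˣ) * star U ∈ N.commutant)
    (hscalar : ∀ z ∈ Comm (pre N U ∪ Set.range fun h : Λ => lam (I := I) (h : Γ)),
      ∃ t : ℂ, z = t • 1)
    [DecidableEq Γ] [DecidableEq I] (i₀ : I) (v : Γ → (L2 (Γ × I) →L[ℂ] L2 (Γ × I))) (hvu : ∀ g, v g ∈ unitary (L2 (Γ × I) →L[ℂ] L2 (Γ × I)))
    (hvn : ∀ g, ‖v g - lam g‖ ≤ e₁) (hvP : ∀ g, v g ∈ Comm (pre N U))
    (hvi : ∀ (g : Γ) (h : Λ), lam (g * h * g⁻¹) * v g = v g * lam (h : Γ)) :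
    ∃ (w : Γ → (L2 (Γ × I) →L[ℂ] L2 (Γ × I))) (a' : Γ → Γ → I → ℂ),
      (∀ g, w g ∈ Comm (pre N U)) ∧
      (∀ g x i, w g (lp.single 2 (x, i) (1 : ℂ)) = a' g x i • lp.single 2 (g * x, i) (1 : ℂ)) ∧
      (∀ g x i, ‖a' g x i‖ = 1) ∧ (∀ g x i, ‖a' g x i - 1‖ ≤ 2 * e₁) ∧
      ∀ g h x i, a' h x i * a' g (h * x) i = a' g h i₀ * a' (g * h) x i := by
  have hP₂s := star_mem_pre (N := N) (U := U)
  set a : Γ → Γ → I → ℂ :=
    fun g x i => (v g (lp.single 2 (x, i) (1 : ℂ))) (g * x, i) with ha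
  have hva : ∀ g x i, v g (lp.single 2 (x, i) (1 : ℂ)) =
      a g x i • lp.single 2 (g * x, i) (1 : ℂ) := fun g x i =>
    apply_single_of_intertwine hΛ hicc g (hvi g) (fun h d => hvP g _ (hUrop h d)) x i
  have hanorm : ∀ g x i, ‖a g x i‖ = 1 := fun g x i => by
    have h1 : ∀ f : L2 (Γ × I), ‖v g f‖ = ‖f‖ := fun f => by
      refine le_antisymm (((v g).le_opNorm f).trans (mul_le_of_le_one_left (norm_nonneg _)
        (norm_le_one_of_unitary (hvu g)))) ?_
      calc ‖f‖ = ‖star (v g) (v g f)‖ := by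
            rw [← mul_apply_eq_comp, Unitary.star_mul_self_of_mem (hvu g), one_apply_eq_self]
        _ ≤ _ := ((star (v g)).le_opNorm _).trans (mul_le_of_le_one_left (norm_nonneg _)
            (norm_le_one_of_unitary (Unitary.star_mem (hvu g))))
    rw [← norm_smul_single (g * x, i) (a g x i), ← hva, h1, norm_single_one]
  have ha1 : ∀ g x i, ‖a g x i - 1‖ ≤ e₁ := fun g x i => by
    rw [← norm_smul_single (g * x, i) (a g x i - 1), sub_smul, one_smul, ← hva,
      ← lam_single g x i, ← sub_apply]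
    refine ((v g - lam g).le_opNorm _).trans ?_
    rw [norm_single_one, mul_one]
    exact hvn g
  -- normalised implementers multiply up to a scalar
  set q : Γ → ℂ := fun g => starRingEnd ℂ (a g 1 i₀) with hq
  set a' : Γ → Γ → I → ℂ := fun g x i => q g * a g x i with ha'
  have hqn : ∀ g, ‖q g‖ = 1 := fun g => by rw [hq]; simp [hanorm]
  have ha'n : ∀ g x i, ‖a' g x i‖ = 1 := fun g x i => by rw [ha']; simp [hqn, hanorm]
  have ha'1 : ∀ g x i, ‖a' g x i - 1‖ ≤ 2 * e₁ := fun g x i => by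
    have e : a' g x i - 1 = q g * (a g x i - 1) + starRingEnd ℂ (a g 1 i₀ - 1) := by
      rw [ha', hq, map_sub, map_one]; ring
    rw [e, two_mul]
    refine (norm_add_le _ _).trans (add_le_add ?_ ?_)
    · rw [norm_mul, hqn, one_mul]; exact ha1 g x i
    · rw [RCLike.norm_conj]; exact ha1 g 1 i₀
  have ha'0 : ∀ g, a' g 1 i₀ = 1 := fun g => by
    show starRingEnd ℂ (a g 1 i₀) * a g 1 i₀ = 1
    rw [← Complex.normSq_eq_conj_mul_self, Complex.normSq_eq_norm_sq, hanorm]; simp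
  set w : Γ → (L2 (Γ × I) →L[ℂ] L2 (Γ × I)) := fun g => q g • v g with hw
  have hwa : ∀ g x i, w g (lp.single 2 (x, i) (1 : ℂ)) =
      a' g x i • lp.single 2 (g * x, i) (1 : ℂ) := fun g x i => by
    rw [hw, smul_apply, hva, smul_smul]
  have hwu : ∀ g, w g ∈ unitary (L2 (Γ × I) →L[ℂ] L2 (Γ × I)) := fun g => by
    have hq1 : starRingEnd ℂ (q g) * q g = 1 := by
      rw [← Complex.normSq_eq_conj_mul_self, Complex.normSq_eq_norm_sq, hqn]; simp
    refine Unitary.mem_iff.2 ⟨?_, ?_⟩ <;>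
      simp only [hw, star_smul, smul_mul_smul_comm, Complex.star_def]
    · rw [hq1, Unitary.star_mul_self_of_mem (hvu g), one_smul]
    · rw [mul_comm, hq1, Unitary.mul_star_self_of_mem (hvu g), one_smul]
  have hwP : ∀ g, w g ∈ Comm (pre N U) := fun g z hz => (hvP g z hz).smul_left _
  have hcomm : ∀ g h, ∃ t : ℂ, w g * w h = t • w (g * h) := fun g h => by
    set z := w g * w h * star (w (g * h)) with hz
    have hzS : z ∈ Comm (pre N U ∪ Set.range fun h : Λ => lam (I := I) (h : Γ)) := by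
      rintro z' (hz' | ⟨l, rfl⟩)
      · exact ((hwP g z' hz').mul_left (hwP h z' hz')).mul_left
          (star_mem_comm hP₂s (hwP (g * h)) z' hz')
      · have hi : ∀ (g : Γ) (h : Λ), lam (I := I) (g * h * g⁻¹) * w g = w g * lam (h : Γ) :=
          fun g h => by rw [hw, mul_smul_comm, smul_mul_assoc, hvi]
        set l₁ : Λ := ⟨g⁻¹ * l * g, by simpa using hΛ.conj_mem _ l.2 g⁻¹⟩
        set l₂ : Λ := ⟨(g * h)⁻¹ * l * (g * h), by simpa using hΛ.conj_mem _ l.2 (g * h)⁻¹⟩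
        have h1 : lam (I := I) (l : Γ) * w g = w g * lam (l₁ : Γ) := by
          rw [← hi g l₁]; congr 2; simp [l₁, mul_assoc]
        have h2 : lam (I := I) (l₁ : Γ) * w h = w h * lam (l₂ : Γ) := by
          rw [← hi h l₂]; congr 2; simp [l₁, l₂, mul_assoc]
        have h3 : lam (I := I) (l₂ : Γ) * star (w (g * h)) = star (w (g * h)) * lam (l : Γ) := by
          have h4 : lam (I := I) (l : Γ) * w (g * h) = w (g * h) * lam (l₂ : Γ) := by
            rw [← hi (g * h) l₂]; congr 2; simp [l₂, mul_assoc]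
          calc lam (I := I) (l₂ : Γ) * star (w (g * h))
              = star (w (g * h)) * (w (g * h) * lam (l₂ : Γ)) * star (w (g * h)) := by
                rw [← mul_assoc (star _), Unitary.star_mul_self_of_mem (hwu _), one_mul]
            _ = _ := by
                rw [← h4, mul_assoc, mul_assoc, Unitary.mul_star_self_of_mem (hwu _), mul_one]
        show z * lam (I := I) (l : Γ) = lam (l : Γ) * z
        rw [hz]
        calc w g * w h * star (w (g * h)) * lam (l : Γ)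
            = w g * (w h * lam (l₂ : Γ)) * star (w (g * h)) := by
              simp only [mul_assoc]; rw [← h3]
          _ = lam (l : Γ) * (w g * w h * star (w (g * h))) := by
              rw [← h2, ← mul_assoc (w g), ← h1]; simp only [mul_assoc]
    obtain ⟨t, ht⟩ := hscalar z hzS
    refine ⟨t, ?_⟩
    rw [← one_mul (w (g * h)), ← smul_mul_assoc, ← ht, hz, mul_assoc,
      Unitary.star_mul_self_of_mem (hwu _), mul_one]
  set c : Γ → Γ → ℂ := fun g h => a' g h i₀ with hc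
  have hcoef : ∀ g h x i, a' h x i * a' g (h * x) i = c g h * a' (g * h) x i := fun g h x i => by
    obtain ⟨t, ht⟩ := hcomm g h
    have key : ∀ x i, a' h x i * a' g (h * x) i = t * a' (g * h) x i := fun x i => by
      have := congrArg (fun T => (T (lp.single 2 (x, i) (1 : ℂ))) (g * (h * x), i)) ht
      simp only [mul_apply_eq_comp, smul_apply, hwa, map_smul] at this
      simpa [mul_assoc] using this
    have h0 := key 1 i₀
    rw [ha'0, ha'0, mul_one, one_mul, mul_one] at h0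
    rw [key x i, ← h0]
  exact ⟨w, a', hwP, hwa, ha'n, ha'1, hcoef⟩

/-- The diagonal unitary. -/
theorem exists_diag {K e₁ : ℝ} (hK : 0 ≤ K) (he : 0 ≤ e₁) [DecidableEq Γ] [DecidableEq I]
    (i₀ : I) (w : Γ → (L2 (Γ × I) →L[ℂ] L2 (Γ × I))) (a' : Γ → Γ → I → ℂ)
    (hwa : ∀ g x i, w g (lp.single 2 (x, i) (1 : ℂ)) = a' g x i • lp.single 2 (g * x, i) (1 : ℂ))
    (ha'n : ∀ g x i, ‖a' g x i‖ = 1) (ha'1 : ∀ g x i, ‖a' g x i - 1‖ ≤ 2 * e₁)
    (hcoef : ∀ g h x i, a' h x i * a' g (h * x) i = a' g h i₀ * a' (g * h) x i)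
    (b : Γ → ℂ) (hbn : ∀ g, ‖b g‖ = 1) (hb1 : ∀ g, ‖b g - 1‖ ≤ K * (2 * e₁))
    (hbc : ∀ g h, a' g h i₀ * b (g * h) = b g * b h) :
    ∃ u ∈ unitary (L2 (Γ × I) →L[ℂ] L2 (Γ × I)), ‖u - 1‖ ≤ (K + 1) * (2 * e₁) ∧
      ∀ g, u * lam g * star u = (b g)⁻¹ • w g := by
  have hb0 : ∀ g, b g ≠ 0 := fun g h0 => by simpa [h0] using hbn g
  -- the implementing diagonal unitary
  set β : Γ × I → ℂ := fun p => a' p.1 1 p.2 / b p.1 with hβ
  have hβn : ∀ p, ‖β p‖ = 1 := fun p => by rw [hβ]; simp [ha'n, hbn]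
  set u := monoOp (Equiv.refl (Γ × I)) β hβn with hu
  have hu0 : u ∈ unitary (L2 (Γ × I) →L[ℂ] L2 (Γ × I)) := monoOp_mem_unitary _ _ _
  have hu1 : ‖u - 1‖ ≤ (K + 1) * (2 * e₁) := by
    refine norm_monoOp_sub_one_le _ _ (by positivity) fun p => ?_
    have e : β p - 1 = ((a' p.1 1 p.2 - 1) + (1 - b p.1)) / b p.1 := by
      rw [hβ, sub_add_sub_cancel, sub_div, div_self (hb0 _)]
    rw [e, norm_div, hbn, div_one]
    refine (norm_add_le _ _).trans ?_
    rw [norm_sub_rev 1]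
    linarith [ha'1 p.1 1 p.2, hb1 p.1]
  have hul : ∀ g, u * lam g * star u = (b g)⁻¹ • w g := fun g => by
    have hu2 : u * lam g = ((b g)⁻¹ • w g) * u := by
      refine ext_single fun p => ?_
      obtain ⟨x, i⟩ := p
      have hus : ∀ p, u (lp.single 2 p (1 : ℂ)) = β p • lp.single 2 p (1 : ℂ) := fun p => by
        rw [hu, monoOp_single, ← lp.single_smul]
        simp
      rw [mul_apply_eq_comp, mul_apply_eq_comp, lam_single, hus, hus, map_smul, smul_apply, hwa,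
        smul_smul, smul_smul]
      congr 1
      have h1 := hcoef g x 1 i
      rw [mul_one] at h1
      have h2 := hbc g x
      simp only [hβ]
      have := hb0 g
      have := hb0 x
      have := hb0 (g * x)
      field_simp
      linear_combination (-(b (g * x))) * h1 - (a' (g * x) 1 i) * h2
    rw [hu2, mul_assoc, Unitary.mul_star_self_of_mem hu0, mul_one]
  exact ⟨u, hu0, hu1, hul⟩

/-- A conjugate of `M` inside `N` by a unitary near one is all of `N`. -/
theorem conj_eq (hM : IsGroupAlg M) {s : ℝ} {W : L2 (Γ × I) →L[ℂ] L2 (Γ × I)} (hWu : W ∈ unitary (L2 (Γ × I) →L[ℂ] L2 (Γ × I))) {d : ℝ}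
    (hWd : ‖W - 1‖ ≤ d) (hsd : s + 2 * d ≤ 1 / 2)
    (nearM : ∀ y ∈ N, ‖y‖ ≤ 1 → ∃ x ∈ M, ‖x‖ ≤ 1 ∧ ‖y - x‖ < s)
    (hsub : ∀ x ∈ M, W * x * star W ∈ N) :
    (fun x => W * x * star W) '' (M : Set (L2 (Γ × I) →L[ℂ] L2 (Γ × I))) = (N : Set (L2 (Γ × I) →L[ℂ] L2 (Γ × I))) := by
  refine Set.Subset.antisymm (by rintro _ ⟨x, hx, rfl⟩; exact hsub x hx) ?_
  -- a near closed subspace is everything
  intro y hy
  set F := (fun x => W * x * star W) '' (M : Set (L2 (Γ × I) →L[ℂ] L2 (Γ × I))) with hF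
  have hFe : F = (fun z => star W * z * W) ⁻¹' (M : Set (L2 (Γ × I) →L[ℂ] L2 (Γ × I))) := by
    ext z
    constructor
    · rintro ⟨x, hx, rfl⟩
      show star W * (W * x * star W) * W ∈ M
      rwa [← mul_assoc, ← mul_assoc, Unitary.star_mul_self_of_mem hWu, one_mul, mul_assoc,
        Unitary.star_mul_self_of_mem hWu, mul_one]
    · intro hz
      exact ⟨star W * z * W, hz, conj_conj_star hWu z⟩
  have hFc : IsClosed F := by
    rw [hFe, show (M : Set (L2 (Γ × I) →L[ℂ] L2 (Γ × I))) = _ from hM]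
    exact (Set.isClosed_centralizer _).preimage (by fun_prop)
  by_contra hyF
  have hne : F.Nonempty := Set.Nonempty.image _ ⟨0, zero_mem M⟩
  have hd : 0 < Metric.infDist y F :=
    lt_of_le_of_ne Metric.infDist_nonneg fun h => hyF ((hFc.mem_iff_infDist_zero hne).2 h.symm)
  obtain ⟨_, ⟨x, hx, rfl⟩, hfd⟩ := (Metric.infDist_lt_iff hne).1
    (show Metric.infDist y F < 3 / 2 * Metric.infDist y F by linarith)
  set f := W * x * star W with hf
  have hρ : 0 < ‖y - f‖ :=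
    lt_of_lt_of_le hd ((Metric.infDist_le_dist_of_mem (show f ∈ F from ⟨x, hx, rfl⟩)).trans_eq (dist_eq_norm _ _))
  set ρ := ((‖y - f‖ : ℝ) : ℂ)
  set y₁ := ρ⁻¹ • (y - f) with hy₁
  have hy₁n : ‖y₁‖ ≤ 1 := by
    rw [hy₁, norm_smul, norm_inv, Complex.norm_real, norm_norm, inv_mul_cancel₀ hρ.ne']
  obtain ⟨x₁, hx₁, hx₁n, hd₁⟩ := nearM y₁
    (SMulMemClass.smul_mem (s := N.toStarSubalgebra) _ (sub_mem hy (hsub x hx))) hy₁n
  have hclose : ‖y₁ - W * x₁ * star W‖ ≤ 1 / 2 := by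
    have h1 := norm_sub_le_norm_sub_add_norm_sub y₁ x₁ (W * x₁ * star W)
    rw [norm_sub_rev x₁] at h1
    have h2 := norm_conj_sub_le hWu hWd hx₁n
    linarith
  have hmem : f + ρ • (W * x₁ * star W) ∈ F := ⟨x + ρ • x₁,
    add_mem hx (SMulMemClass.smul_mem (s := M.toStarSubalgebra) _ hx₁), by
      simp [hf, mul_add, add_mul]⟩
  have h3 : Metric.infDist y F ≤ ‖y - f‖ / 2 := by
    refine (Metric.infDist_le_dist_of_mem hmem).trans ?_
    rw [dist_eq_norm]
    have e : y - (f + ρ • (W * x₁ * star W)) = ρ • (y₁ - W * x₁ * star W) := by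
      rw [hy₁, smul_sub ρ, smul_smul, mul_inv_cancel₀ (Complex.ofReal_ne_zero.2 hρ.ne'), one_smul]
      abel
    rw [e, norm_smul, Complex.norm_real, norm_norm]
    nlinarith
  rw [dist_eq_norm] at hfd
  linarith


/-- An algebra close to the group algebra with multiplicity is its image under a unitary near
one. -/
theorem exists_conj (hΛ : Λ.Normal) (hicc : RelICC Λ) (ham : Amenable Λ) (hM : IsGroupAlg M)
    {K η : ℝ} (hK : 0 ≤ K)
    (hstab : ∀ c : Γ → Γ → ℂ, (∀ g h, ‖c g h‖ = 1) →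
      (∀ g h k, c h k * c g (h * k) = c g h * c (g * h) k) →
      ∀ ε : ℝ, ε ≤ η → (∀ g h, ‖c g h - 1‖ ≤ ε) →
        ∃ b : Γ → ℂ, (∀ g, ‖b g‖ = 1) ∧ (∀ g, ‖b g - 1‖ ≤ K * ε) ∧
          ∀ g h, c g h * b (g * h) = b g * b h)
    {s ε : ℝ} (hε : 0 < ε) (hs1 : 10 ^ 9 * (K + 1) * s ≤ min (min 1 η) ε)
    (nearN : ∀ x ∈ M, ‖x‖ ≤ 1 → ∃ y ∈ N, ‖y‖ ≤ 1 ∧ ‖x - y‖ < s)
    (nearM : ∀ y ∈ N, ‖y‖ ≤ 1 → ∃ x ∈ M, ‖x‖ ≤ 1 ∧ ‖y - x‖ < s)
    (nearN' : ∀ x ∈ M.commutant, ‖x‖ ≤ 1 → ∃ y ∈ N.commutant, ‖y‖ ≤ 1 ∧ ‖x - y‖ < s) :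
    ∃ W ∈ unitary (L2 (Γ × I) →L[ℂ] L2 (Γ × I)), ‖W - 1‖ < ε ∧
      (fun x => W * x * star W) '' (M : Set (L2 (Γ × I) →L[ℂ] L2 (Γ × I))) = (N : Set (L2 (Γ × I) →L[ℂ] L2 (Γ × I))) := by
  classical
  rcases isEmpty_or_nonempty I with hI | ⟨⟨i₀⟩⟩
  · have : Subsingleton (L2 (Γ × I) →L[ℂ] L2 (Γ × I)) := ⟨fun a b => ext_single fun p => isEmptyElim p.2⟩
    refine ⟨1, one_mem _, by simpa using hε, Set.ext fun x => ?_⟩
    exact ⟨fun _ => by rw [SetLike.mem_coe, Subsingleton.elim x 0]; exact zero_mem _,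
      fun _ => ⟨0, zero_mem M, Subsingleton.elim _ _⟩⟩
  obtain ⟨_, _, -, hs0'⟩ := nearN _ (zero_mem M) (by simp)
  have hs0 : 0 < s := (norm_nonneg _).trans_lt hs0'
  have h1 : 10 ^ 9 * (K + 1) * s ≤ 1 := hs1.trans ((min_le_left _ _).trans (min_le_left _ _))
  have hη' : 10 ^ 9 * (K + 1) * s ≤ η := hs1.trans ((min_le_left _ _).trans (min_le_right _ _))
  have hε' : 10 ^ 9 * (K + 1) * s ≤ ε := hs1.trans (min_le_right _ _)
  have hKs : 0 ≤ K * s := by positivity
  obtain ⟨U, hUu, hUn, hUlam, hUrop⟩ := exists_base ham hM (by linarith) nearN nearN'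
  have hscalar := comm_scalar hΛ hicc ham hM (by linarith : s ≤ 90000 * s) (by linarith) hUu hUn nearM
  choose v hvu hvn hvP hvi using
    exists_implementer hΛ ham hM (by linarith : s ≤ 90000 * s) (by linarith) hUu hUn hUlam nearN
  obtain ⟨w, a', hwP, hwa, ha'n, ha'1, hcoef⟩ :=
    exists_coef hΛ hicc hUrop hscalar i₀ v hvu hvn hvP hvi
  obtain ⟨b, hbn, hb1, hbc⟩ := hstab (fun g h => a' g h i₀) (fun g h => ha'n g h i₀)
    (fun g h k => hcoef g h k i₀) (2 * (16 * (90000 * s))) (by linarith)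
    fun g h => ha'1 g h i₀
  obtain ⟨u, hu0, hu1, hul⟩ :=
    exists_diag hK (by positivity) i₀ w a' hwa ha'n ha'1 hcoef b hbn hb1 hbc
  have hWu : U * u ∈ unitary (L2 (Γ × I) →L[ℂ] L2 (Γ × I)) := mul_mem hUu hu0
  have hWn : ‖U * u - 1‖ ≤ 90000 * s + (K + 1) * (2 * (16 * (90000 * s))) := by
    have e : U * u - 1 = (U - 1) * u + (u - 1) := by noncomm_ring
    rw [e]
    exact (norm_add_le _ _).trans (add_le_add ((norm_mul_le _ _).trans
      ((mul_le_of_le_one_right (norm_nonneg _) (norm_le_one_of_unitary hu0)).trans hUn)) hu1)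
  have hWlam : ∀ g, U * u * lam g * star (U * u) ∈ N := fun g => by
    rw [star_mul, show U * u * lam g * (star u * star U) = U * (u * lam g * star u) * star U by
      simp only [mul_assoc], hul, ← mem_comm_pre hUu]
    exact fun z hz => (hwP g z hz).smul_left _
  have hsub : ∀ x ∈ M, U * u * x * star (U * u) ∈ N := fun x hx => (mem_iff_comm N).2 fun z hz => by
    rw [← conj_conj_star hWu z, commute_conj_iff hWu]
    refine hM.mem_iff.1 hx _ fun g => ?_
    rw [← commute_conj_iff hWu, conj_conj_star hWu]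
    exact (mem_iff_comm N).1 (hWlam g) z hz
  exact ⟨U * u, hWu, lt_of_le_of_lt hWn (by nlinarith), conj_eq hM hWu hWn (by nlinarith) nearM hsub⟩

end Vale.Agent.P096.Stable
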