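import Vale.Agent.P096.Stable.Defs

/-!
# Monomial operators on square summable families
-/

noncomputable section

namespace Vale.Agent.P096.Stable

open scoped InnerProductSpace ENNReal

universe u

set_option linter.unusedSectionVars false

variable {X : Type u}

theorem monoOp_apply (e : X ≃ X) (s : X → ℂ) (hs : ∀ x, ‖s x‖ = 1) (f : L2 X) (x : X) :
    monoOp e s hs f x = s x * f (e.symm x) := rfl

theorem norm_monoOp_sub_one_le (s : X → ℂ) (hs : ∀ x, ‖s x‖ = 1) {C : ℝ} (hC : 0 ≤ C)
    (h : ∀ x, ‖s x - 1‖ ≤ C) : ‖monoOp (Equiv.refl X) s hs - 1‖ ≤ C := by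
  refine ContinuousLinearMap.opNorm_le_bound _ hC fun f => ?_
  refine le_of_pow_le_pow_left₀ two_ne_zero (by positivity) ?_
  rw [mul_pow, norm_sq_l2, norm_sq_l2, ← tsum_mul_left]
  refine (summable_sq _).tsum_le_tsum (fun x => ?_) ((summable_sq f).mul_left _)
  rw [sub_apply, lp.coeFn_sub, Pi.sub_apply, monoOp_apply, one_apply_eq_self, Equiv.refl_symm,
    Equiv.refl_apply, ← sub_one_mul, norm_mul, mul_pow]
  gcongr
  exact h x

theorem monoOp_mul (e e' : X ≃ X) (s s' : X → ℂ) (hs : ∀ x, ‖s x‖ = 1) (hs' : ∀ x, ‖s' x‖ = 1) :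
    monoOp e s hs * monoOp e' s' hs' =
      monoOp (e'.trans e) (fun x => s x * s' (e.symm x)) fun x => by
        rw [norm_mul, hs, hs', one_mul] := by
  refine ContinuousLinearMap.ext fun f => lp.ext (funext fun x => ?_)
  rw [mul_apply_eq_comp, monoOp_apply, monoOp_apply, monoOp_apply]
  simp [mul_assoc]

theorem monoOp_congr {e e' : X ≃ X} {s s' : X → ℂ} {hs : ∀ x, ‖s x‖ = 1} {hs' : ∀ x, ‖s' x‖ = 1}
    (he : e = e') (h : s = s') : monoOp e s hs = monoOp e' s' hs' := by
  subst he; subst h; rfl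

theorem monoOp_one : monoOp (Equiv.refl X) (fun _ => 1) (fun _ => norm_one) = 1 :=
  ContinuousLinearMap.ext fun f => lp.ext (funext fun x => by simp [monoOp_apply])

theorem star_monoOp (e : X ≃ X) (s : X → ℂ) (hs : ∀ x, ‖s x‖ = 1) :
    star (monoOp e s hs) = monoOp e.symm (fun x => starRingEnd ℂ (s (e x))) fun x => by
      rw [RCLike.norm_conj, hs] := by
  rw [ContinuousLinearMap.star_eq_adjoint]
  refine ((ContinuousLinearMap.eq_adjoint_iff _ _).2 fun f g => ?_).symm
  rw [lp.inner_eq_tsum, lp.inner_eq_tsum, ← e.tsum_eq (fun x => ⟪f x, monoOp e s hs g x⟫_ℂ)]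
  refine tsum_congr fun x => ?_
  simp only [monoOp_apply, Equiv.symm_symm, Equiv.symm_apply_apply, RCLike.inner_apply, map_mul,
    RCLike.conj_conj]
  ring

theorem monoOp_mem_unitary (e : X ≃ X) (s : X → ℂ) (hs : ∀ x, ‖s x‖ = 1) :
    monoOp e s hs ∈ unitary (L2 X →L[ℂ] L2 X) := by
  have h1 : ∀ z : ℂ, ‖z‖ = 1 → starRingEnd ℂ z * z = 1 := fun z hz => by
    rw [← Complex.normSq_eq_conj_mul_self, Complex.normSq_eq_norm_sq, hz]; norm_num
  refine Unitary.mem_iff.2 ⟨?_, ?_⟩ <;> rw [star_monoOp, monoOp_mul, ← monoOp_one] <;>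
    refine monoOp_congr (Equiv.ext fun x => by simp) (funext fun x => ?_)
  · simpa using h1 _ (hs (e x))
  · rw [mul_comm]; simpa using h1 _ (hs x)

variable [DecidableEq X]

theorem monoOp_single (e : X ≃ X) (s : X → ℂ) (hs : ∀ x, ‖s x‖ = 1) (x : X) (a : ℂ) :
    monoOp e s hs (lp.single 2 x a) = lp.single 2 (e x) (s (e x) * a) := by
  refine lp.ext (funext fun y => ?_)
  rw [monoOp_apply, lp.single_apply, lp.single_apply]
  rcases eq_or_ne (e.symm y) x with h | h
  · subst h; simp
  · have hy : y ≠ e x := fun hy => h (by rw [hy, Equiv.symm_apply_apply])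
    simp [h, hy]

/-- Operators that agree on the basis vectors are equal. -/
theorem ext_single {S T : L2 X →L[ℂ] L2 X}
    (h : ∀ x, S (lp.single 2 x 1) = T (lp.single 2 x 1)) : S = T := by
  refine ContinuousLinearMap.ext fun f => ?_
  have hf := lp.hasSum_single ENNReal.ofNat_ne_top f
  refine (S.hasSum hf).unique ?_
  convert T.hasSum hf using 1
  funext x
  have e : lp.single 2 x (f x) = f x • (lp.single 2 x (1 : ℂ) : L2 X) := by
    rw [← lp.single_smul, smul_eq_mul, mul_one]
  rw [e, map_smul, map_smul, h]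

theorem norm_single_one (x : X) : ‖(lp.single 2 x (1 : ℂ) : L2 X)‖ = 1 := by
  rw [lp.norm_single (by norm_num), norm_one]

theorem norm_smul_single (x : X) (a : ℂ) : ‖(a • lp.single 2 x (1 : ℂ) : L2 X)‖ = ‖a‖ := by
  rw [norm_smul, norm_single_one, mul_one]

/-- A family supported at one point. -/
theorem eq_single_of_support {f : L2 X} {x : X} (h : ∀ y, y ≠ x → f y = 0) :
    f = f x • lp.single 2 x (1 : ℂ) := by
  refine lp.ext (funext fun y => ?_)
  rw [lp.coeFn_smul, Pi.smul_apply, lp.single_apply]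
  rcases eq_or_ne y x with rfl | hy
  · simp
  · simp [hy, h y hy]

/-- A square summable family that is constant on an infinite set vanishes there. -/
theorem eq_zero_of_const_on_infinite {f : L2 X} {S : Set X} (hS : S.Infinite) {c : ℂ}
    (h : ∀ y ∈ S, f y = c) : c = 0 := by
  by_contra hc
  have ht := (summable_sq f).tendsto_cofinite_zero
  have h1 := ht.eventually (gt_mem_nhds (show (0 : ℝ) < ‖c‖ ^ 2 by positivity))
  rw [Filter.eventually_cofinite] at h1
  exact hS (h1.subset fun y hy => by simp [h y hy])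

end Vale.Agent.P096.Stable
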