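import Vale.Agent.P096.Defs
import Vale.Agent.P096.Stable.Align
import Vale.Agent.P096.Stable.Means
import Vale.Agent.P096.Stable.Ops

/-!
# Group von Neumann algebras with multiplicity: translations, signs, scalars
-/

noncomputable section

namespace Vale.Agent.P096.Stable

open Vale.Agent.P104
open scoped InnerProductSpace

universe u v

set_option linter.unusedSectionVars false

variable {Γ : Type u} [Group Γ] {I : Type u}

theorem lam_mul (g h : Γ) : lam (I := I) (g * h) = lam g * lam h := by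
  rw [lam, lam, lam, monoOp_mul]
  exact monoOp_congr (Equiv.ext fun ⟨a, b⟩ => by simp [mul_assoc]) (funext fun _ => by simp)

theorem lam_one : lam (I := I) (1 : Γ) = 1 := by
  rw [lam, ← monoOp_one]
  exact monoOp_congr (Equiv.ext fun p => by simp) rfl

theorem lam_mem_unitary (g : Γ) : lam (I := I) g ∈ unitary (L2 (Γ × I) →L[ℂ] L2 (Γ × I)) :=
  monoOp_mem_unitary _ _ _

theorem star_lam (g : Γ) : star (lam (I := I) g) = lam g⁻¹ := by
  rw [lam, lam, star_monoOp]
  exact monoOp_congr (Equiv.ext fun p => by simp) (funext fun _ => by simp)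

/-- Left translations as a homomorphism into the unitary group. -/
def lamHom : Γ →* unitary (L2 (Γ × I) →L[ℂ] L2 (Γ × I)) where
  toFun g := ⟨lam g, lam_mem_unitary g⟩
  map_one' := Subtype.ext lam_one
  map_mul' g h := Subtype.ext (lam_mul g h)

/-- Finitely supported signs. -/
def Signs (I : Type u) : Subgroup (I → ℤˣ) where
  carrier := {d | {i | d i ≠ 1}.Finite}
  one_mem' := by simp
  mul_mem' {a b} ha hb := (ha.union hb).subset fun i hi => by
    by_contra hc
    simp only [Set.mem_union, Set.mem_ofPred_eq, not_or, not_not] at hc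
    exact hi (by simp [hc.1, hc.2])
  inv_mem' {a} ha := ha.subset fun i hi hc => hi (by simp [hc])

theorem amenable_signs (I : Type u) : Amenable (Signs I) := by
  classical
  refine amenable_of_locallyFinite fun s => ?_
  set F : Set I := ⋃ d ∈ s, {i | (d : I → ℤˣ) i ≠ 1} with hF
  have hFf : F.Finite := Set.Finite.biUnion s.finite_toSet fun d _ => d.2
  refine ⟨{ carrier := {d | ∀ i, i ∉ F → (d : I → ℤˣ) i = 1}
            one_mem' := fun i _ => rfl
            mul_mem' := fun {a b} ha hb i hi => by simp [ha i hi, hb i hi]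
            inv_mem' := fun {a} ha i hi => by simp [ha i hi] }, fun d hd i hi => ?_, ?_⟩
  · by_contra h
    exact hi (Set.mem_biUnion hd h)
  · have : Finite F := hFf
    refine Set.Finite.of_finite_image (f := fun d (i : F) => (d : I → ℤˣ) i) (Set.toFinite _) ?_
    intro a ha b hb hab
    refine Subtype.ext (funext fun i => ?_)
    by_cases hi : i ∈ F
    · exact congrFun hab ⟨i, hi⟩
    · rw [ha i hi, hb i hi]

/-- A sign as a complex number. -/
def sgn (z : ℤˣ) : ℂ := ((z : ℤ) : ℂ)

theorem norm_sgn (z : ℤˣ) : ‖sgn z‖ = 1 := by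
  rcases Int.units_eq_one_or z with rfl | rfl <;> simp [sgn]

theorem sgn_mul (a b : ℤˣ) : sgn (a * b) = sgn a * sgn b := by simp [sgn]

/-- Right translation times a sign. -/
def rop (g : Γ) (d : I → ℤˣ) : L2 (Γ × I) →L[ℂ] L2 (Γ × I) :=
  monoOp ((Equiv.mulRight g⁻¹).prodCongr (Equiv.refl I)) (fun p => sgn (d p.2)) fun _ => norm_sgn _

theorem rop_mul (g h : Γ) (c d : I → ℤˣ) : rop (g * h) (c * d) = rop g c * rop h d := by
  rw [rop, rop, rop, monoOp_mul]
  exact monoOp_congr (Equiv.ext fun ⟨a, b⟩ => by simp [mul_assoc]) (funext fun p => by simp [sgn_mul])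

theorem rop_one : rop (1 : Γ) (1 : I → ℤˣ) = 1 := by
  rw [rop, ← monoOp_one]
  exact monoOp_congr (Equiv.ext fun p => by simp) (funext fun _ => by simp [sgn])

theorem lam_commute_rop (g h : Γ) (d : I → ℤˣ) : Commute (lam g) (rop h d) := by
  show lam g * rop h d = rop h d * lam g
  rw [lam, rop, monoOp_mul, monoOp_mul]
  exact monoOp_congr (Equiv.ext fun ⟨a, b⟩ => by simp [mul_assoc]) (funext fun p => by simp)

/-- The right representation of a subgroup times the signs. -/
def ropHom (L : Subgroup Γ) : L × Signs I →* unitary (L2 (Γ × I) →L[ℂ] L2 (Γ × I)) where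
  toFun p := ⟨rop (p.1 : Γ) (p.2 : I → ℤˣ), monoOp_mem_unitary _ _ _⟩
  map_one' := Subtype.ext rop_one
  map_mul' _ _ := Subtype.ext (rop_mul _ _ _ _)

variable [DecidableEq Γ] [DecidableEq I]

theorem lam_single (g x : Γ) (i : I) :
    lam g (lp.single 2 (x, i) (1 : ℂ)) = lp.single 2 (g * x, i) 1 := by
  rw [lam, monoOp_single]
  simp

theorem rop_single (g x : Γ) (d : I → ℤˣ) (i : I) :
    rop g d (lp.single 2 (x, i) (1 : ℂ)) = sgn (d i) • lp.single 2 (x * g⁻¹, i) (1 : ℂ) := by
  rw [rop, monoOp_single, ← lp.single_smul]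
  simp

/-- The sign that is `-1` at one point. -/
def flipAt (j : I) : Signs I :=
  ⟨fun i => if i = j then -1 else 1, (Set.finite_singleton j).subset fun i hi => by
    by_contra h; exact hi (if_neg h)⟩

variable {Λ : Subgroup Γ}

/-- An operator that intertwines translations by `Λ` with their conjugates by `g` and commutes
with right translations by `Λ` and with signs moves every basis vector to a multiple of one. -/
theorem apply_single_of_intertwine (hΛ : Λ.Normal) (hicc : RelICC Λ)
    {v : L2 (Γ × I) →L[ℂ] L2 (Γ × I)} (g : Γ)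
    (h1 : ∀ h : Λ, lam (g * h * g⁻¹) * v = v * lam (h : Γ))
    (h2 : ∀ (h : Λ) (d : Signs I), Commute v (rop (h : Γ) (d : I → ℤˣ))) (x : Γ) (i : I) :
    v (lp.single 2 (x, i) (1 : ℂ)) =
      (v (lp.single 2 (x, i) (1 : ℂ))) (g * x, i) • lp.single 2 (g * x, i) (1 : ℂ) := by
  set f := v (lp.single 2 (x, i) (1 : ℂ)) with hf
  -- the fixing operators
  have hfix : ∀ (h : Λ) (d : Signs I), (d : I → ℤˣ) i = 1 → ∀ (y : Γ) (j : I),
      f (y, j) = sgn ((d : I → ℤˣ) j) * f (g * (h : Γ)⁻¹ * g⁻¹ * y * (x⁻¹ * h * x), j) := by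
    intro h d hd y j
    set h' : Λ := ⟨x⁻¹ * h * x, by simpa using hΛ.conj_mem _ h.2 x⁻¹⟩
    have e : lam (g * h * g⁻¹) (rop (h' : Γ) (d : I → ℤˣ) f) = f := by
      rw [hf, ← mul_apply_eq_comp (rop _ _) v, ← (h2 h' d).eq, mul_apply_eq_comp,
        ← mul_apply_eq_comp (lam _) v, h1 h, mul_apply_eq_comp, rop_single, hd, map_smul,
        lam_single]
      simp [sgn, h', mul_assoc]
    conv_lhs => rw [← e]
    rw [lam, monoOp_apply, rop, monoOp_apply]
    simp only [Equiv.prodCongr_symm, Equiv.refl_symm, Equiv.prodCongr_apply, Equiv.mulLeft_symm,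
      Equiv.mulRight_symm, Equiv.coe_mulLeft, Equiv.coe_mulRight, Equiv.coe_refl, Prod.map_apply,
      id, one_mul, inv_inv, h']
    congr 3
    group
  refine eq_single_of_support fun p hp => ?_
  obtain ⟨y, j⟩ := p
  rcases eq_or_ne j i with rfl | hj
  · set z := g⁻¹ * y * x⁻¹ with hz
    have hz1 : z ≠ 1 := fun h => hp (by
      rw [Prod.mk.injEq]
      refine ⟨?_, rfl⟩
      calc y = g * z * x := by rw [hz]; group
        _ = g * x := by rw [h, mul_one])
    refine eq_zero_of_const_on_infinite (f := f)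
      ((hicc z hz1).image (f := fun w => (g * w * x, j)) fun a _ b _ hab =>
        mul_left_cancel (mul_right_cancel (Prod.mk.inj hab).1)) ?_
    rintro _ ⟨_, ⟨h, rfl⟩, rfl⟩
    rw [hfix h 1 rfl]
    simp only [Subgroup.coe_one, Pi.one_apply, sgn, Units.val_one, Int.cast_one, one_mul]
    have : g * (h : Γ)⁻¹ * g⁻¹ * (g * ((h : Γ) * z * (h : Γ)⁻¹) * x) * (x⁻¹ * h * x) = y := by
      rw [hz]; group
    rw [this]
  · have h3 := hfix 1 (flipAt j) (if_neg (Ne.symm hj)) y j
    simp only [flipAt, if_pos, Subgroup.coe_one] at h3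
    simp [sgn] at h3
    linear_combination (1 / 2 : ℂ) * h3

/-- An element of the algebra generated by translations that commutes with translations by `Λ`
is a scalar. -/
theorem exists_scalar (hΛ : Λ.Normal) (hicc : RelICC Λ) {a : L2 (Γ × I) →L[ℂ] L2 (Γ × I)}
    (ha : ∀ z, (∀ g : Γ, Commute (lam g) z) → Commute a z)
    (h1 : ∀ h : Λ, Commute (lam (h : Γ)) a) : ∃ t : ℂ, a = t • 1 := by
  rcases isEmpty_or_nonempty I with hI | ⟨⟨i₀⟩⟩
  · exact ⟨0, ext_single fun p => isEmptyElim p.2⟩
  have hr : ∀ g d, Commute a (rop g d) := fun g d => ha _ fun k => lam_commute_rop k g d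
  have hs : ∀ (g : Γ) (i : I), a (lp.single 2 (g, i) (1 : ℂ)) =
      (a (lp.single 2 (g, i) (1 : ℂ))) (g, i) • lp.single 2 (g, i) (1 : ℂ) := fun g i => by
    have := apply_single_of_intertwine hΛ hicc (v := a) 1
      (fun h => by simpa using (h1 h).eq) (fun h d => hr _ _) g i
    rwa [one_mul] at this
  refine ⟨(a (lp.single 2 ((1 : Γ), i₀) (1 : ℂ))) (1, i₀), ext_single fun p => ?_⟩
  obtain ⟨g, i⟩ := p
  rw [smul_apply, one_apply_eq_self]
  set P := monoOp ((Equiv.mulRight g).prodCongr (Equiv.swap i₀ i)) (fun _ : Γ × I => (1 : ℂ))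
    fun _ => norm_one with hP
  have hPc : Commute a P := ha _ fun k => by
    show lam k * P = P * lam k
    rw [lam, hP, monoOp_mul, monoOp_mul]
    exact monoOp_congr (Equiv.ext fun ⟨a, b⟩ => by simp [mul_assoc]) (funext fun p => by simp)
  have e : lp.single 2 (g, i) (1 : ℂ) = P (lp.single 2 ((1 : Γ), i₀) (1 : ℂ)) := by
    rw [hP, monoOp_single]
    simp
  rw [e, ← mul_apply_eq_comp a P, hPc.eq, mul_apply_eq_comp]
  conv_lhs => rw [hs 1 i₀]
  rw [map_smul]

end Vale.Agent.P096.Stable
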